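import Mathlib.Analysis.Complex.UpperHalfPlane.ProperAction
import Mathlib.Topology.Algebra.Order.Floor
import Mathlib.Analysis.SpecificLimits.Basic

/-!
# P022K, block RM: subgroups of `SL₂(ℝ)` normalised by a cocompact discrete group
-/

set_option linter.all false

open UpperHalfPlane Filter Topology Matrix
open scoped MatrixGroups

noncomputable section

namespace Vale.Agent.P022K.RM.Dens

section

variable {M Γ : Type*} [Group M] [TopologicalSpace M] [IsTopologicalGroup M] [Group Γ]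
  (s : Γ →* M) (l : Γ → ℝ)

/-- cocompact -/
def Coc (D : Set M) : Prop := ∃ C : Set M, IsCompact C ∧ ∀ g, ∃ γ ∈ D, γ * g ∈ C

/-- the epigraph -/
def Epi : Set (M × ℝ) := {x | ∃ γ, s γ = x.1 ∧ l γ ≤ x.2}

variable {s l}

theorem z_conj (h : ∀ γ δ, l (γ * δ * γ⁻¹) ≤ l δ) (γ : Γ) {g : M} {t : ℝ}
    (m : (g, t) ∈ closure (Epi s l)) : (s γ * g * (s γ)⁻¹, t) ∈ closure (Epi s l) :=
  map_mem_closure (f := fun x : M × ℝ => (s γ * x.1 * (s γ)⁻¹, x.2)) (by fun_prop) m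
    fun x ⟨δ, a, b⟩ => ⟨γ * δ * γ⁻¹, by simp [a], (h γ δ).trans b⟩

theorem z_lim [FirstCountableTopology M] (h : ∀ γ δ, l (γ * δ * γ⁻¹) ≤ l δ)
    (hc : Coc (Set.range s)) (g : ℕ → M) : ∃ d : M, ∀ (k : ℕ → M) (t : ℕ → ℝ) (k₀ : M),
      Tendsto k atTop (𝓝 k₀) → Tendsto t atTop (𝓝 0) →
      (∀ n, (g n * k n * (g n)⁻¹, t n) ∈ closure (Epi s l)) →
      (d * k₀ * d⁻¹, 0) ∈ closure (Epi s l) := by
  obtain ⟨C, a, b⟩ := hc
  choose γ m e using b
  choose δ hδ using m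
  obtain ⟨d, -, φ, p, q⟩ := a.tendsto_subseq fun n => e (g n)
  refine ⟨d, fun k t k₀ x y z => isClosed_closure.mem_of_tendsto (((q.mul (x.comp
    p.tendsto_atTop)).mul q.inv).prodMk_nhds (y.comp p.tendsto_atTop)) (.of_forall fun n => ?_)⟩
  simpa [hδ, mul_assoc] using z_conj h (δ (g (φ n))) (z (φ n))

/-- the limits of short elements -/
def zero (h1 : ∀ γ δ, l (γ * δ) ≤ l γ + l δ) (h2 : ∀ γ, l γ⁻¹ ≤ l γ)
    (h : (1, 0) ∈ closure (Epi s l)) : Subgroup M where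
  carrier := {g | (g, 0) ∈ closure (Epi s l)}
  mul_mem' {x y} p q := by
    simpa using map_mem_closure₂ (f := fun x y : M × ℝ => (x.1 * y.1, x.2 + y.2))
      (u := Epi s l) (by fun_prop) p q
      fun x ⟨γ, p, q⟩ y ⟨δ, r, t⟩ => ⟨γ * δ, by simp [p, r], (h1 γ δ).trans (add_le_add q t)⟩
  one_mem' := h
  inv_mem' {x} p := map_mem_closure (f := fun x : M × ℝ => (x.1⁻¹, x.2)) (by fun_prop) p
    fun x ⟨γ, p, q⟩ => ⟨γ⁻¹, by simp [p], (h2 γ).trans q⟩

theorem Coc.bdd {D : Set M} (h : Coc D) {f : M → ℝ} (c : Continuous f)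
    (i : ∀ γ ∈ D, ∀ g, f (γ * g) = f g) (s : ∀ t, ∃ g, t ≤ f g) : False := by
  obtain ⟨C, a, b⟩ := h
  obtain ⟨M, hM⟩ := a.bddAbove_image c.continuousOn
  obtain ⟨g, e⟩ := s (M + 1)
  obtain ⟨γ, m, k⟩ := b g
  linarith [hM ⟨_, k, rfl⟩, i γ m g]

theorem Coc.conj {D : Subgroup M} (h : Coc (D : Set M)) (d : M) :
    Coc (D.comap (MulAut.conj d).toMonoidHom : Set M) := by
  obtain ⟨C, a, b⟩ := h
  refine ⟨_, (Homeomorph.mulLeft d).isCompact_preimage.2 a, fun g => ?_⟩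
  obtain ⟨γ, m, k⟩ := b (d * g)
  exact ⟨d⁻¹ * γ * d, by simpa [mul_assoc] using m, by simpa [mul_assoc] using k⟩

end

/-- the group -/
abbrev G : Type := SL(2, ℝ)

instance : FirstCountableTopology G :=
  haveI : FirstCountableTopology (Matrix (Fin 2) (Fin 2) ℝ) :=
    inferInstanceAs (FirstCountableTopology (Fin 2 → Fin 2 → ℝ))
  TopologicalSpace.Subtype.firstCountableTopology {A : Matrix (Fin 2) (Fin 2) ℝ | A.det = 1}

/-- matrices -/
def mk (a b c d : ℝ) (h : a * d - b * c = 1) : G := ⟨!![a, b; c, d], by rwa [det_fin_two_of]⟩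

section

variable {a b c d : ℝ} (h : a * d - b * c = 1)

@[simp] theorem mk00 : mk a b c d h 0 0 = a := rfl

@[simp] theorem mk01 : mk a b c d h 0 1 = b := rfl

@[simp] theorem mk10 : mk a b c d h 1 0 = c := rfl

@[simp] theorem mk11 : mk a b c d h 1 1 = d := rfl

end

/-- upper unipotent -/
def up (t : ℝ) : G := mk 1 t 0 1 (by ring)

/-- lower unipotent -/
def lo (t : ℝ) : G := mk 1 0 t 1 (by ring)

/-- the normal form of trace `t` -/
def nf (t : ℝ) : G := mk 1 1 (t - 2) (t - 1) (by ring)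

/-- diagonal -/
def dg (e : ℝ) (h : e ≠ 0) : G := mk e 0 0 e⁻¹ (by simp [h])

theorem dt (g : G) : g 0 0 * g 1 1 - g 0 1 * g 1 0 = 1 := by rw [← det_fin_two, g.det_coe]

theorem mul_ap (g h : G) (i j : Fin 2) : (g * h) i j = g i 0 * h 0 j + g i 1 * h 1 j := by
  rw [SpecialLinearGroup.coe_mul, mul_apply, Fin.sum_univ_two]

theorem ext4 {g h : G} (a : g 0 0 = h 0 0) (b : g 0 1 = h 0 1) (c : g 1 0 = h 1 0)
    (d : g 1 1 = h 1 1) : g = h :=
  SpecialLinearGroup.ext _ _ fun i j => by fin_cases i <;> fin_cases j <;> assumption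

theorem up_add (s t : ℝ) : up (s + t) = up s * up t := by
  apply ext4 <;> simp [mul_ap, up, add_comm]

theorem up_zero : up 0 = 1 := by apply ext4 <;> simp [up]

theorem up_neg (t : ℝ) : up (-t) = (up t)⁻¹ := by
  rw [eq_inv_iff_mul_eq_one, ← up_add, neg_add_cancel, up_zero]

theorem cont_mk {X : Type*} [TopologicalSpace X] {a b c d : X → ℝ}
    (h : ∀ x, a x * d x - b x * c x = 1) (ha : Continuous a)
    (hb : Continuous b) (hc : Continuous c) (hd : Continuous d) :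
    Continuous fun x => mk (a x) (b x) (c x) (d x) (h x) :=
  Continuous.subtype_mk (continuous_matrix fun i j => by
    fin_cases i <;> fin_cases j <;> assumption) _

theorem cont_up : Continuous up :=
  cont_mk _ continuous_const continuous_id continuous_const continuous_const

theorem cont_nf : Continuous nf := cont_mk _ continuous_const continuous_const (by fun_prop)
  (by fun_prop)

theorem cont_ap (i j : Fin 2) : Continuous fun g : G => g i j :=
  continuous_subtype_val.matrix_elem i j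

theorem up_conj {a : G} (h : a 1 0 = 0) (t : ℝ) : a * up t * a⁻¹ = up (a 0 0 ^ 2 * t) := by
  have := dt a
  rw [h] at this
  rw [mul_inv_eq_iff_eq_mul]
  apply ext4 <;> simp [mul_ap, up, h]
  linear_combination (-a 0 0 * t) * this

/-- the unipotent elements generate -/
theorem gen {H : Subgroup G} (hu : ∀ t, up t ∈ H) (hl : ∀ t, lo t ∈ H) (g : G) : g ∈ H := by
  have key : ∀ g : G, g 1 0 ≠ 0 → g ∈ H := fun g h => by
    have := dt g
    rw [show g = up ((g 0 0 - 1) / g 1 0) * lo (g 1 0) * up ((g 1 1 - 1) / g 1 0) by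
      apply ext4 <;> simp [mul_ap, up, lo] <;> field_simp <;> linarith]
    exact H.mul_mem (H.mul_mem (hu _) (hl _)) (hu _)
  by_cases h : g 1 0 = 0
  · refine (H.mul_mem_cancel_right (hl 1)).1 (key _ fun e => ?_)
    have := dt g
    simp [mul_ap, lo, h] at e
    simp [h, e] at this
  · exact key g h

theorem lo_mem {H : Subgroup G} (hu : ∀ t, up t ∈ H) {g : G} (h : g 1 0 ≠ 0)
    (hg : ∀ x ∈ H, g * x * g⁻¹ ∈ H) (t : ℝ) : lo t ∈ H := by
  have := dt g
  have e : lo t * (up (-g 0 0 / g 1 0) * g) = up (-g 0 0 / g 1 0) * g * up (-t / g 1 0 ^ 2) := by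
    apply ext4 <;> simp only [mul_ap, up, lo, mk00, mk01, mk10, mk11] <;> field_simp <;>
      first | ring1 | linear_combination (-g 1 0 * t) * this
  rw [← eq_mul_inv_iff_mul_eq] at e
  rw [e, _root_.mul_inv_rev, mul_assoc (up _), ← mul_assoc _ g⁻¹, mul_assoc (up _)]
  exact H.mul_mem (H.mul_mem (hu _) (hg _ (hu _))) (H.inv_mem (hu _))

/-- trivial action -/
def Triv (g : G) : Prop := ∀ τ : ℍ, g • τ = τ

theorem Triv.conj {g : G} (d : G) (h : Triv (d * g * d⁻¹)) : Triv g := fun τ => by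
  simpa [mul_smul] using h (d • τ)

theorem Triv.up {t : ℝ} (h : Triv (up t)) : t = 0 := by
  have := congrArg UpperHalfPlane.coe (h I)
  rw [coe_specialLinearGroup_apply] at this
  simpa [Dens.up] using this

theorem triv_of {g : G} (b : g 0 1 = 0) (c : g 1 0 = 0) (d : g 1 1 = g 0 0) : Triv g := fun τ => by
  have := dt g
  have h : g 0 0 ≠ 0 := fun e => by simp [e, b] at this
  ext1
  rw [coe_specialLinearGroup_apply]
  simp [b, c, d, h]

/-- the normal form -/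
theorem conj_nf {h : G} (H : ¬ Triv h) : ∃ g : G,
    g * nf (h 0 0 + h 1 1) * g⁻¹ = h ∨ g * nf (h 0 0 + h 1 1) * g⁻¹ = h⁻¹ := by
  have hd := dt h
  have key : ∀ (h : G) (x y : ℝ), 0 < h 0 1 * y ^ 2 + (h 0 0 - h 1 1) * x * y - h 1 0 * x ^ 2 →
      ∃ g : G, g * nf (h 0 0 + h 1 1) * g⁻¹ = h := fun h x y p => by
    have hd := dt h
    obtain ⟨r, hr⟩ : ∃ r : ℝ, r ^ 2 * _ = 1 := ⟨√_⁻¹, by
      rw [Real.sq_sqrt (inv_pos.2 p).le, inv_mul_cancel₀ p.ne']⟩
    refine ⟨mk (r * ((1 - h 1 1) * x + h 0 1 * y)) (r * x) (r * (h 1 0 * x + (1 - h 0 0) * y))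
      (r * y) (by linear_combination hr), ?_⟩
    rw [mul_inv_eq_iff_eq_mul]
    apply ext4 <;> simp [mul_ap, nf]
    · linear_combination (r * x) * hd
    · ring
    · linear_combination (r * y) * hd
    · ring
  obtain ⟨x, y, p⟩ : ∃ x y : ℝ, h 0 1 * y ^ 2 + (h 0 0 - h 1 1) * x * y - h 1 0 * x ^ 2 ≠ 0 := by
    by_contra c
    push Not at c
    have b := c 0 1
    have e := c 1 0
    exact H (triv_of (by linarith) (by linarith) (by linarith [c 1 1]))
  rcases lt_or_gt_of_ne p with p | p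
  · obtain ⟨g, e⟩ := key h⁻¹ x y (by simp [SpecialLinearGroup.coe_inv, adjugate_fin_two]; linarith)
    refine ⟨g, .inr (Eq.trans ?_ e)⟩
    simp [SpecialLinearGroup.coe_inv, adjugate_fin_two, add_comm]
  · exact (key h x y p).imp fun _ => .inl

/-- discrete -/
def Dsc (D : Set G) : Prop := ∀ u : ℕ → G, (∀ n, u n ∈ D) → Tendsto u atTop (𝓝 1) →
  ∃ n, Triv (u n)

/-- a cocompact discrete group is not triangular -/
theorem not_tri {D : Subgroup G} (hc : Coc (D : Set G)) (hd : Dsc D) : ∃ γ ∈ D, γ 1 0 ≠ 0 := by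
  by_contra z
  push Not at z
  have dd : ∀ γ ∈ D, γ 0 0 * γ 1 1 = 1 := fun γ m => by simpa [z γ m] using dt γ
  obtain ⟨a, ha, p⟩ : ∃ a ∈ D, a 0 0 ^ 2 < 1 := by
    by_contra c
    push Not at c
    refine hc.bdd (f := fun g => g 1 0 ^ 2) ((cont_ap 1 0).pow 2) (fun γ m g => ?_)
      fun t => ⟨lo (t + 1), by simp [lo]; nlinarith⟩
    have e := c _ (D.inv_mem m)
    simp [SpecialLinearGroup.coe_inv, adjugate_fin_two, -one_le_sq_iff_one_le_abs] at e
    have : γ 1 1 ^ 2 = 1 := by nlinarith [c γ m, dd γ m]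
    simp only [mul_ap, z γ m, zero_mul, zero_add, mul_pow, this, one_mul]
  have p' := (sub_pos.2 p).ne'
  refine hc.bdd (f := fun g => (g 0 0 - a 0 0 * a 0 1 / (1 - a 0 0 ^ 2) * g 1 0) * g 1 0)
    (((cont_ap 0 0).sub (continuous_const.mul (cont_ap 1 0))).mul (cont_ap 1 0)) (fun b hb g => ?_)
    fun t => ⟨up (a 0 0 * a 0 1 / (1 - a 0 0 ^ 2)) * lo t, by simp [mul_ap, up, lo]⟩
  have hw := D.mul_mem (D.mul_mem ha hb) (D.inv_mem (D.mul_mem hb ha))
  obtain ⟨w, e⟩ : ∃ w, w = a * b * (b * a)⁻¹ := ⟨_, rfl⟩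
  rw [← e] at hw
  rw [eq_mul_inv_iff_mul_eq] at e
  have e0 := congrArg (fun g : G => g 0 0) e
  have e1 := congrArg (fun g : G => g 0 1) e
  have a1 := dd a ha
  have b1 := dd b hb
  simp only [mul_ap, z a ha, z b hb, mul_zero, zero_mul, add_zero, zero_add] at e0 e1 ⊢
  have w0 : w 0 0 = 1 := by
    linear_combination (a 1 1 * b 1 1) * e0 - (w 0 0 - 1) * (b 0 0 * b 1 1 * a1 + b1)
  have wu : w = up (w 0 1) := ext4 w0 rfl (z w hw) (by simpa [w0, up] using dd w hw)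
  have pw : ∀ k : ℕ, up ((a 0 0 ^ 2) ^ k * w 0 1) ∈ D := fun k => by
    induction k with
    | zero => rwa [pow_zero, one_mul, ← wu]
    | succ k ih =>
      rw [pow_succ', mul_assoc, ← up_conj (z a ha)]
      exact D.mul_mem (D.mul_mem ha ih) (D.inv_mem ha)
  obtain ⟨k, hk⟩ := hd _ pw (by
    rw [← up_zero, ← zero_mul (w 0 1)]
    exact (cont_up.tendsto _).comp
      ((tendsto_pow_atTop_nhds_zero_of_lt_one (sq_nonneg _) p).mul_const _))
  have w1 : w 0 1 = 0 := (mul_eq_zero.1 hk.up).resolve_left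
    (pow_ne_zero _ (pow_ne_zero _ (left_ne_zero_of_mul_eq_one a1)))
  rw [w0, w1] at e1
  obtain ⟨x, hx, ex⟩ : ∃ x, x * (1 - a 0 0 ^ 2) = a 0 0 * a 0 1 ∧
    a 0 0 * a 0 1 / (1 - a 0 0 ^ 2) = x := ⟨_, div_mul_cancel₀ _ p', rfl⟩
  have k : b 0 1 * b 1 1 - x * b 1 1 ^ 2 + x = 0 := mul_left_cancel₀ p' (by
    linear_combination (1 - b 1 1 ^ 2) * hx + a 0 0 * b 1 1 * e1 - b 0 1 * b 1 1 * a1 -
      a 0 0 * a 0 1 * b1)
  rw [ex]
  linear_combination g 0 0 * g 1 0 * b1 + g 1 0 ^ 2 * k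

/-- a group which contains a conjugate of the unipotent group -/
theorem top {H D : Subgroup G} (hc : Coc (D : Set G)) (hd : Dsc D) (hn : ∀ γ ∈ D, ∀ x ∈ H, γ * x * γ⁻¹ ∈ H)
    (d : G) (hu : ∀ t, d * up t * d⁻¹ ∈ H) (g : G) : g ∈ H := by
  let c := (MulAut.conj d).toMonoidHom
  obtain ⟨γ, m, e⟩ := not_tri (D := D.comap c) (hc.conj d)
    fun u m t => (hd (fun n => d * u n * d⁻¹) m (by
      simpa using (t.const_mul d).mul_const d⁻¹)).imp fun n k => k.conj d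
  have := gen (H := H.comap c) hu (lo_mem hu e fun x k => by
    rw [Subgroup.mem_comap, map_mul, map_mul, map_inv]; exact hn _ m _ k) (d⁻¹ * g * d)
  simpa [c, mul_assoc] using this

section

variable {Γ : Type*} [Group Γ] {s : Γ →* G} {l : Γ → ℝ}

theorem dens (Δ : Subgroup Γ) (h0 : ∀ γ, 0 ≤ l γ) (h1 : ∀ γ δ, l (γ * δ) ≤ l γ + l δ)
    (h2 : ∀ γ, l γ⁻¹ ≤ l γ) (h3 : ∀ γ δ, l (γ * δ * γ⁻¹) ≤ l δ)
    (h4 : ∃ K : Set ℍ, IsCompact K ∧ ∀ τ : ℍ, ∃ γ ∈ Δ, s γ • τ ∈ K)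
    (h5 : ∀ u : ℕ → Γ, (∀ n, u n ∈ Δ) → Tendsto (fun n => s (u n)) atTop (𝓝 1) →
      ∃ n, ∀ τ : ℍ, s (u n) • τ = τ)
    (h6 : ∃ h : ℕ → Γ, Tendsto (fun n => s (h n)) atTop (𝓝 1) ∧
      Tendsto (fun n => l (h n)) atTop (𝓝 0) ∧ ∀ n, ∃ τ : ℍ, s (h n) • τ ≠ τ) (g : G) :
    ∃ u : ℕ → Γ, Tendsto (fun n => s (u n)) atTop (𝓝 g) ∧
      Tendsto (fun n => l (u n)) atTop (𝓝 0) := by
  obtain ⟨K, k1, k2⟩ := h4
  obtain ⟨h, a, b, c⟩ := h6
  have hc : Coc (Δ.map s : Set G) := ⟨_, isProperMap_smul_I.isCompact_preimage k1, fun g => by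
    obtain ⟨γ, m, e⟩ := k2 (g • I)
    exact ⟨_, ⟨γ, m, rfl⟩, by rwa [Set.mem_preimage, mul_smul]⟩⟩
  have hc' : Coc (Set.range s) := hc.imp fun C k => ⟨k.1, fun g => (k.2 g).imp
    fun γ ⟨⟨δ, _, e⟩, m⟩ => ⟨⟨δ, e⟩, m⟩⟩
  let H : Subgroup G := zero (s := s) h1 h2
    (mem_closure_of_tendsto (a.prodMk_nhds b) (.of_forall fun n => ⟨_, rfl, le_rfl⟩))
  choose g₁ hg using fun n => conj_nf (h := s (h n)) fun e => (c n).elim fun τ k => k (e τ)
  obtain ⟨d₁, hd⟩ := z_lim h3 hc' g₁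
  have u1 : d₁ * up 1 * d₁⁻¹ ∈ H := hd _ _ _
    (((cont_nf.comp ((cont_ap 0 0).add (cont_ap 1 1))).tendsto' 1 (up 1) (by
      apply ext4 <;> simp [nf, up] <;> norm_num)).comp a) b fun n => subset_closure
        ((hg n).elim (fun e => ⟨_, e.symm, le_rfl⟩) fun e => ⟨_, (map_inv s _).trans e.symm, h2 _⟩)
  have un : ∀ m : ℕ, d₁ * up m * d₁⁻¹ ∈ H := fun m => by
    induction m with
    | zero => simpa [up_zero] using H.one_mem
    | succ m ih => simpa [up_add, mul_assoc] using H.mul_mem ih u1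
  have n0 : ∀ n : ℕ, (n + 1 : ℝ) ≠ 0 := fun n => by positivity
  obtain ⟨d, hd⟩ := z_lim h3 hc' fun n => d₁ * dg (n + 1) (n0 n)
  have ut : ∀ t, 0 ≤ t → d * up t * d⁻¹ ∈ H := fun t ht => hd _ _ _ ((cont_up.tendsto t).comp
    ((tendsto_nat_floor_mul_div_atTop ht).comp ((tendsto_pow_atTop two_ne_zero).comp
      (tendsto_natCast_atTop_atTop.atTop_add (tendsto_const_nhds (x := 1))))))
    tendsto_const_nhds fun n => by
      have := un ⌊t * (n + 1) ^ 2⌋₊
      rw [← mul_div_cancel₀ (⌊t * (n + 1) ^ 2⌋₊ : ℝ) (pow_ne_zero 2 (n0 n))] at this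
      rw [_root_.mul_inv_rev, mul_assoc d₁, ← mul_assoc _ _ d₁⁻¹, mul_assoc d₁, Function.comp,
        up_conj rfl]
      exact this
  obtain ⟨x, p, q⟩ := mem_closure_iff_seq_limit.1 (top (H := H) hc (fun u m t => by
    choose v v1 v2 using m
    simpa only [v2, Triv] using h5 v v1 (by simpa only [v2] using t))
    (by rintro _ ⟨γ, -, rfl⟩ x m; exact z_conj h3 γ m) d (fun t => (le_total 0 t).elim (ut t)
      fun e => by simpa [up_neg, mul_assoc] using H.inv_mem (ut (-t) (neg_nonneg.2 e))) g)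
  choose u u1 u2 using p
  exact ⟨u, ((continuous_fst.tendsto _).comp q).congr fun n => (u1 n).symm,
    squeeze_zero (fun n => h0 _) u2 ((continuous_snd.tendsto _).comp q)⟩

end

end Vale.Agent.P022K.RM.Dens
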