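import Vale.Agent.P022K.RM.St
import Vale.Agent.P022K.RM.Dens0

/-!
# P022K, block RM: the row DENS
-/

namespace Vale.Agent.P022K.RM

theorem dens : DENS := fun _ _ _ _ Δ => Dens.dens Δ

end Vale.Agent.P022K.RM
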