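import Vale.Agent.P022K.RM.Prim

/-!
# P022K, block RM: the maximum principle
-/

set_option autoImplicit false
set_option linter.unusedSectionVars false

open UpperHalfPlane Filter Topology Metric
open scoped MatrixGroups

noncomputable section

namespace Vale.Agent.P022K.RM

open Sh

/-- strict convexity -/
theorem eq_of_sum {V ι : Type} [NormedAddCommGroup V] [InnerProductSpace ℂ V] (s : Finset ι)
    (w : ι → V) {u : V} {M : ℝ} (hw : ∀ i ∈ s, ‖w i‖ ≤ M) (e : u = ∑ i ∈ s, w i)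
    (hu : s.card * M ≤ ‖u‖) {i : ι} (hi : i ∈ s) : (s.card : ℂ) • w i = u := by
  have M0 := (norm_nonneg _).trans (hw i hi)
  have le : ∀ j ∈ s, RCLike.re (inner ℂ u (w j)) ≤ ‖u‖ * M := fun j hj =>
    (re_inner_le_norm _ _).trans (mul_le_mul_of_nonneg_left (hw j hj) (norm_nonneg _))
  have n : ‖u‖ = s.card * M := le_antisymm (by
    rw [e]
    exact (norm_sum_le _ _).trans ((Finset.sum_le_sum hw).trans (by simp))) hu
  have sm : ∑ j ∈ s, RCLike.re (inner ℂ u (w j)) = ∑ _j ∈ s, ‖u‖ * M := by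
    rw [← map_sum, ← inner_sum, ← e, inner_self_eq_norm_sq, Finset.sum_const, nsmul_eq_mul, sq]
    nth_rw 2 [n]
    ring
  have h := (Finset.sum_eq_sum_iff_of_le le).1 sm i hi
  have : ‖u - (s.card : ℂ) • w i‖ ^ 2 ≤ 0 := by
    rw [@norm_sub_sq ℂ, inner_smul_right, norm_smul, Complex.norm_natCast,
      show RCLike.re ((s.card : ℂ) * inner ℂ u (w i)) = s.card * RCLike.re (inner ℂ u (w i)) by
        simp, h]
    have : (s.card * ‖w i‖) ^ 2 ≤ (s.card * M : ℝ) ^ 2 := by gcongr; exact hw i hi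
    rw [n]
    linarith
  exact (sub_eq_zero.1 (norm_eq_zero.1 (pow_eq_zero_iff two_ne_zero |>.1
    (le_antisymm this (sq_nonneg _))))).symm

section loc

variable {O K : Type} [CommRing O] [IsDomain O] [IsDiscreteValuationRing O] [Field K] [Algebra O K]

/-- `(1 t; 0 1)` -/
def un (t : K) : GL (Fin 2) K :=
  Matrix.GeneralLinearGroup.mkOfDetNeZero !![1, t; 0, 1] (by simp [Matrix.det_fin_two])

theorem un_val (t : K) : (un t : Matrix (Fin 2) (Fin 2) K) = !![1, t; 0, 1] := rfl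

theorem un_det (t : K) : (un t).det = 1 := by
  ext
  simp [un_val, Matrix.det_fin_two]

theorem un_sub (s t : K) : (un s)⁻¹ * un t = un (t - s) := by
  rw [inv_mul_eq_iff_eq_mul]
  ext i k
  fin_cases i <;> fin_cases k <;> simp [un_val, Matrix.mul_apply, Fin.sum_univ_two]

theorem un_conj (c : Kˣ) (t : K) : (dg c)⁻¹ * un t * (dg c)⁻¹⁻¹ = un ((c : K)⁻¹ * t) := by
  rw [inv_inv, mul_assoc, inv_mul_eq_iff_eq_mul]
  ext i k
  fin_cases i <;> fin_cases k <;> simp [un_val, dg_val, Matrix.mul_apply, Fin.sum_univ_two]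

theorem un_one : un (1 : K) ∈ KK O K := ⟨nO 1, by
  ext i k
  fin_cases i <;> fin_cases k <;> simp [un_val, nO]⟩

theorem un_mem (hi : Function.Injective (algebraMap O K)) {t : K} (h : un t ∈ KK O K ⊔ Zl K) :
    ∃ b : O, t = algebraMap O K b := by
  obtain ⟨_, ⟨k, rfl⟩, z, hz, e⟩ := Subgroup.mem_sup_of_normal_right.1 h
  rw [Zl, Matrix.GeneralLinearGroup.center_eq_range_scalar] at hz
  obtain ⟨c, rfl⟩ := hz
  have a := fun i j => congrArg (fun g : GL (Fin 2) K => g i j) e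
  have a0 := a 0 0
  have a1 := a 0 1
  have a2 := a 1 0
  simp [un_val] at a0 a1 a2
  have u := k.det.isUnit
  rw [Matrix.GeneralLinearGroup.val_det_apply, Matrix.det_fin_two,
    hi (a2.trans (map_zero _).symm), mul_zero, sub_zero] at u
  obtain ⟨d, hd⟩ := (isUnit_of_mul_isUnit_left u).exists_left_inv
  refine ⟨k 0 1 * d, ?_⟩
  have := congrArg (algebraMap O K) hd
  rw [map_mul, map_one] at this
  rw [map_mul, ← a1]
  linear_combination (-algebraMap O K (k 0 1) * c) * this +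
    (algebraMap O K (k 0 1) * algebraMap O K d) * a0

theorem un_not (hi : Function.Injective (algebraMap O K)) {p : O} (hp : Irreducible p) {k l : ℕ}
    (h : k < l) : un ((algebraMap O K p)⁻¹ ^ l - (algebraMap O K p)⁻¹ ^ k) ∉ KK O K ⊔ Zl K := by
  intro m
  obtain ⟨b, e⟩ := un_mem hi m
  obtain ⟨j, rfl⟩ := Nat.exists_eq_add_of_lt h
  have p0 : algebraMap O K p ≠ 0 := fun z => hp.ne_zero (hi (z.trans (map_zero _).symm))
  refine hp.not_isUnit (IsUnit.of_mul_eq_one (p ^ j + b * p ^ (k + j)) (hi ?_))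
  simp only [map_mul, map_add, map_pow, map_one, ← e, inv_pow]
  field_simp
  ring

end loc

variable {G0 G : Type} [Group G0] [Group G] {T : Tw G0 G} {U : Subgroup G} {B : Type}
  [AddCommGroup B] [Module ℂ B] {ρ : Representation ℂ G0 B} {V : Type}
  [NormedAddCommGroup V] [InnerProductSpace ℂ V] (A : Arc T ρ V)

theorem Arc.disc {Γ : Subgroup G0} (h : T.Fu Γ) (u : ℕ → G0) (hu : ∀ n, u n ∈ Γ)
    (t : Tendsto (fun n => A.sl (u n)) atTop (𝓝 1)) : ∃ n, ∀ τ : ℍ, A.sl (u n) • τ = τ := by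
  by_contra nt
  obtain ⟨S, hS⟩ := h.pd _ (isCompact_closedBall I 1)
  have tt : ∀ τ : ℍ, Tendsto (fun n => A.sl (u n) • τ) atTop (𝓝 τ) := fun τ => by
    simpa using t.smul_const τ
  have : ∀ σ ∈ S, ∀ᶠ n in atTop, σ⁻¹ * u n ∉ T.Z0 := fun σ _ => by
    have e : ∀ n, σ⁻¹ * u n ∈ T.Z0 → ∀ τ : ℍ, A.sl (u n) • τ = T.r σ • τ := fun n m τ => by
      have := mem_Z0.1 m τ
      rwa [map_mul, map_inv, mul_smul, inv_smul_eq_iff, ← A.act] at this
    by_cases z : ∀ τ : ℍ, T.r σ • τ = τ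
    · exact .of_forall fun n m => nt ⟨n, fun τ => (e n m τ).trans (z τ)⟩
    · obtain ⟨τ, z⟩ := not_forall.1 z
      filter_upwards [(tt τ).eventually_ne (Ne.symm z)] with n hn m using hn (e n m τ)
  obtain ⟨n, h1, h2⟩ := (((eventually_all_finset S).2 this).and
    ((tt I).eventually (closedBall_mem_nhds I one_pos))).exists
  obtain ⟨σ, hσ, m⟩ := hS (u n) (hu n) ⟨I, mem_closedBall_self zero_le_one, A.act _ _ ▸ h2⟩
  exact h1 σ hσ m

theorem Arc.le_one (γ : G0) : ‖A.κ γ‖ ≤ 1 :=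
  ContinuousLinearMap.opNorm_le_bound _ zero_le_one fun v => by rw [A.uni, one_mul]

theorem Arc.mul_le (γ : G0) (f : V →L[ℂ] V) : ‖A.κ γ * f‖ ≤ ‖f‖ :=
  (norm_mul_le _ _).trans (mul_le_of_le_one_left (norm_nonneg _) (A.le_one γ))

theorem Arc.mul_le' (γ : G0) (f : V →L[ℂ] V) : ‖f * A.κ γ‖ ≤ ‖f‖ :=
  (norm_mul_le _ _).trans (mul_le_of_le_one_right (norm_nonneg _) (A.le_one γ))

theorem Arc.mul_inv (γ : G0) : A.κ γ * A.κ γ⁻¹ = 1 := by rw [← map_mul, mul_inv_cancel, map_one]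

variable [FiniteDimensional ℂ V]

/-- a group which contains a cocompact group with infinite index -/
theorem Arc.dense (dens : DENS) {Γ Γ' : Subgroup G0} (h : T.Fu Γ) (le : Γ ≤ Γ') (γ : ℕ → G0)
    (hγ : ∀ n, γ n ∈ Γ') (ne : ∀ k l, k < l → (γ k)⁻¹ * γ l ∉ Γ) (g : SL(2, ℝ)) :
    ∃ u : ℕ → G0, (∀ n, u n ∈ Γ') ∧ Tendsto (fun n => A.sl (u n)) atTop (𝓝 g) ∧
      Tendsto (fun n => A.κ (u n)) atTop (𝓝 1) := by
  obtain ⟨K, hK, cc⟩ := h.cc
  obtain ⟨u, u1, u2⟩ := dens Γ' (A.sl.comp Γ'.subtype) (fun γ => ‖A.κ γ - 1‖) (Γ.subgroupOf Γ')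
    (fun _ => norm_nonneg _) (fun γ δ => by
      rw [show A.κ (γ * δ : Γ') - 1 = A.κ γ - 1 + A.κ γ * (A.κ δ - 1) by
        rw [Subgroup.coe_mul, map_mul]; noncomm_ring]
      exact (norm_add_le _ _).trans (by gcongr; exact A.mul_le _ _)) (fun γ => by
      rw [show A.κ (γ⁻¹ : Γ') - 1 = -(A.κ γ - 1) * A.κ (γ : G0)⁻¹ by
        rw [neg_sub, sub_mul, A.mul_inv, one_mul]; rfl, ← norm_neg (A.κ γ - 1)]
      exact A.mul_le' _ _) (fun γ δ => by
      rw [show A.κ (γ * δ * γ⁻¹ : Γ') - 1 = A.κ γ * (A.κ δ - 1) * A.κ (γ : G0)⁻¹ by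
        rw [mul_sub, sub_mul, mul_one, A.mul_inv, ← map_mul, ← map_mul]; rfl]
      exact (A.mul_le' _ _).trans (A.mul_le _ _))
    ⟨K, hK, fun τ => by
      obtain ⟨δ, hδ, m⟩ := cc τ
      exact ⟨⟨δ, le hδ⟩, hδ, (A.act δ τ).symm ▸ m⟩⟩
    (fun u hu t => A.disc h (fun n => u n) hu t) (by
      choose δ hδ m using fun n => cc ((T.r (γ n))⁻¹ • I)
      have := FiniteDimensional.proper ℂ (V →L[ℂ] V)
      have : FirstCountableTopology (Matrix (Fin 2) (Fin 2) ℝ) :=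
        inferInstanceAs (FirstCountableTopology (Fin 2 → Fin 2 → ℝ))
      have : FirstCountableTopology SL(2, ℝ) :=
        (Topology.IsInducing.subtypeVal (t := {A : Matrix (Fin 2) (Fin 2) ℝ | A.det = 1})).firstCountableTopology
      obtain ⟨⟨a, b⟩, -, φ, hφ, t⟩ := ((isProperMap_smul_I.isCompact_preimage hK).prod
        (isCompact_closedBall (0 : V →L[ℂ] V) 1)).tendsto_subseq
        (x := fun n => (A.sl (δ n * (γ n)⁻¹), A.κ (δ n * (γ n)⁻¹))) fun n =>
          ⟨by rw [Set.mem_preimage, A.act, map_mul, map_inv, mul_smul]; exact m n,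
            mem_closedBall_zero_iff.2 (A.le_one _)⟩
      have t1 := (continuous_fst.tendsto _).comp t
      have t2 := (continuous_snd.tendsto _).comp t
      have mm : ∀ n, δ n * (γ n)⁻¹ ∈ Γ' := fun n => mul_mem (le (hδ n)) (inv_mem (hγ n))
      refine ⟨fun n => ⟨_, mm (φ n)⟩ * ⟨_, mm (φ (n + 1))⟩⁻¹, ?_, ?_, fun n => ?_⟩
      · simpa [Function.comp_def] using t1.mul (t1.comp (tendsto_add_atTop_nat 1)).inv
      · refine squeeze_zero (fun _ => norm_nonneg _) (fun n => ?_) (by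
          simpa using (t2.sub (t2.comp (tendsto_add_atTop_nat 1))).norm)
        refine le_of_eq_of_le ?_ (A.mul_le' (δ (φ (n + 1)) * (γ (φ (n + 1)))⁻¹)⁻¹ _)
        rw [sub_mul, ← map_mul, ← map_mul, ← map_mul, ← map_mul, mul_inv_cancel, map_one]
        rfl
      · by_contra z
        refine ne _ _ (hφ (Nat.lt_succ_self n)) ?_
        have := h.z0 (mem_Z0.2 fun τ => (A.act _ τ).symm.trans (not_not.1 (not_exists.1 z τ)))
        convert mul_mem (mul_mem (inv_mem (hδ (φ n))) this) (hδ (φ (n + 1))) using 1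
        simp only [Subgroup.coe_subtype, Subgroup.coe_mul, Subgroup.coe_inv]
        group) g
  exact ⟨fun n => u n, fun n => (u n).2, u1, tendsto_iff_norm_sub_tendsto_zero.2 u2⟩

/-- **row RAMC** -/
theorem ramc (dens : DENS) : RAMC := by
  intro G0 G _ _ T ok B _ _ ρ V _ _ _ A fx U hU z hz ne O K _ _ _ _ _ L hL sa c he
  by_contra l
  rw [not_lt] at l
  have hO : Cor U (L.To U) U := (T.hec_of ok.conj ok.fi).1 U hU U hU _
  have cd : (hO.fin.toFinset.card : ℝ) = qq O + 1 := by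
    rw [← hO.rep.ncard, (((T.hec_of ok.conj ok.fi).2 O K L).1 U hU hL).2]
    simp
  have N0 : (0 : ℝ) < hO.fin.toFinset.card := by rw [cd]; positivity
  rw [← cd] at l
  have c0 : c ≠ 0 := norm_pos_iff.1 (N0.trans_le l)
  refine ne (core (A := A) hO ok hU c0 l (fun k W gd fi => ?_) hz he)
  obtain ⟨g₀, x₀, b⟩ := gd.max ok hU
  set M := ‖W g₀ x₀‖ with hM
  have st : ∀ a ∈ L.To U, ∀ g x, ‖W g x‖ = M →
      W g (x * a) = ((hO.fin.toFinset.card : ℂ)⁻¹ * c) • W g x ∧ ‖W g (x * a)‖ = M := by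
    intro a ha g x h
    obtain ⟨i, hi, e⟩ := hO.rep.sur a ha
    have s := eq_of_sum hO.fin.toFinset (fun i => W g (x * i.out)) (u := c • W g x)
      (fun _ _ => b _ _) (by
        conv_lhs => rw [← fi g, pm_apply, smul_smul, mul_inv_cancel₀ c0, one_smul])
      (by rw [norm_smul, h]; gcongr) hi
    rw [(gd.inv g).eq e] at s
    have s' : W g (x * a) = ((hO.fin.toFinset.card : ℂ)⁻¹ * c) • W g x := by
      rw [mul_smul, ← s, smul_smul, inv_mul_cancel₀ (by exact_mod_cast N0.ne'), one_smul]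
    refine ⟨s', le_antisymm (b _ _) ?_⟩
    rw [s', norm_smul, h, norm_mul, norm_inv, Complex.norm_natCast]
    exact le_mul_of_one_le_left (norm_nonneg _) ((one_le_inv_mul₀ N0).2 l)
  let P : G → Prop := fun y => ∀ g x, ‖W g x‖ = M → W g (x * y) = W g x
  have pm : ∀ {y y'}, P y → P y' → P (y * y') := fun h h' g x e => by
    rw [← mul_assoc, h' g _ (by rw [h g x e, e]), h g x e]
  let U' : Subgroup G :=
    { carrier := {y | P y ∧ P y⁻¹}
      mul_mem' := fun h h' => ⟨pm h.1 h'.1, by rw [mul_inv_rev]; exact pm h'.2 h.2⟩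
      one_mem' := ⟨fun g x _ => by rw [mul_one], fun g x _ => by rw [inv_one, mul_one]⟩
      inv_mem' := fun h => ⟨h.2, by rw [inv_inv]; exact h.1⟩ }
  have le : U ≤ U' := fun u hu =>
    ⟨fun g x _ => gd.inv g x u hu, fun g x _ => gd.inv g x _ (inv_mem hu)⟩
  have iv : ∀ a ∈ L.To U, a⁻¹ ∈ L.To U := fun a ha => by
    rw [← hL.To_inv hU]
    simpa using ha
  have pc : ∀ a ∈ L.To U, ∀ y, P y → P (a * y * a⁻¹) := fun a ha y h g x e => by
    obtain ⟨-, e1⟩ := st a ha g x e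
    have e2 := h g _ e1
    rw [← mul_assoc, ← mul_assoc, (st _ (iv a ha) g _ (by rw [e2, e1])).1, e2,
      ← (st _ (iv a ha) g _ e1).1, mul_inv_cancel_right]
  obtain ⟨p, hp, e⟩ := L.irr
  have um : ∀ n : ℕ, L.ι (un ((algebraMap O K p)⁻¹ ^ n)) ∈ U' := fun n => by
    induction n with
    | zero => exact le (hL.1 _ (by rw [pow_zero]; exact un_one))
    | succ n ih =>
      have a : (L.ι (dg L.ϖ))⁻¹ ∈ L.To U := iv _ ⟨1, one_mem _, 1, one_mem _, by simp⟩
      rw [pow_succ', e, ← un_conj, ← e, map_mul, map_mul, map_inv, map_inv, map_inv]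
      exact ⟨pc _ a _ ih.1, by rw [conj_inv]; exact pc _ a _ ih.2⟩
  choose γ u hu eq using fun n : ℕ => sa U hU x₀ _ (un_det ((algebraMap O K p)⁻¹ ^ n))
  have eγ : ∀ n, x₀⁻¹ * T.j (γ n) * x₀ = L.ι (un ((algebraMap O K p)⁻¹ ^ n)) * (u n)⁻¹ := fun n => by
    rw [eq_mul_inv_iff_mul_eq, mul_assoc, mul_assoc, inv_mul_eq_iff_eq_mul, eq, mul_assoc]
  have mv : ∀ δ ∈ T.Gam U' x₀, W (A.sl δ * g₀) x₀ = A.κ δ (W g₀ x₀) := fun δ hδ => by
    rw [← (T.mem_Gam.1 hδ).2 g₀ x₀ rfl, ← gd.eqv]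
    congr 1
    group
  have all : ∀ g, W (g * g₀) x₀ = W g₀ x₀ := fun g => by
    obtain ⟨v, v0, v1, v2⟩ := A.dense dens (ok.fu U hU x₀) (Tw.Gam_mono le x₀) γ
      (fun n => T.mem_Gam.2 (eγ n ▸ mul_mem (um n) (le (inv_mem (hu n))))) (fun k l h m => by
        refine un_not L.inj hp h ((hL.iff hU).1 ?_)
        have := mul_mem (mul_mem (inv_mem (hu k)) (T.mem_Gam.1 m)) (hu l)
        rw [← un_sub, map_mul, map_inv, eq_mul_inv_iff_mul_eq.1 (eγ k) |>.symm,
          eq_mul_inv_iff_mul_eq.1 (eγ l) |>.symm]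
        convert this using 1
        simp only [map_mul, map_inv]
        group) g
    refine tendsto_nhds_unique (((gd.cont x₀).tendsto _).comp (v1.mul_const g₀)) ?_
    have := ((ContinuousLinearMap.apply ℂ V (W g₀ x₀)).continuous.tendsto _).comp v2
    exact this.congr fun n => (mv _ (v0 n)).symm
  have f := fx _ (ok.fu U hU x₀) (W g₀ x₀)
    (fun δ hδ => by rw [← mv δ (Tw.Gam_mono le x₀ hδ), all]) k⁻¹
  have s := gd.swp g₀ x₀
  rw [f, show g₀ * k = g₀ * k * g₀⁻¹ * g₀ by group, all, eq_neg_iff_add_eq_zero, ← two_smul ℂ,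
    smul_eq_zero_iff_right two_ne_zero] at s
  funext x
  exact norm_le_zero_iff.1 ((b 1 x).trans (by rw [hM, s, norm_zero]))

end Vale.Agent.P022K.RM
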