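import Vale.Agent.P022K.RM.Fix
import Vale.Agent.P022K.RM.Dens
import Vale.Agent.P022K.RM.Max
import Vale.Agent.P022K.F0.Bndk
import Vale.Agent.P022K.F0.OkA
import Vale.Agent.P022K.CH.StB

/-!
# P022K, block RM: the rows RAM, BNDA from the leaves; the row RAM of block CH
-/

set_option autoImplicit false

open NumberField

noncomputable section

namespace Vale.Agent.P022K.RM

open Vale.Agent.P022 Sh CH

/-- **RAMF** -/
def RAMF : Prop := ∀ A : Thy, A.Aut = Aut → A.RAM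

/-- **row RAM** -/
theorem ram : RAM := (sram Sh.ok arcC).1 (ramc dens)

/-- **row BNDA** -/
theorem bnda : BNDA := (sram Sh.ok arcC).2 bndc

/-- **row BNDF** -/
theorem bndfC : BNDF := bndf_of bnda

/-- an eigenvalue of small absolute value is not Eisenstein -/
theorem sq_ne {c : Qb} {l : ℕ} (h : ∀ φ : Qb →+* ℂ, ‖φ c‖ < l + 1) : c ^ 2 ≠ ((l : Qb) + 1) ^ 2 := by
  intro e
  let φ : Qb →+* ℂ := (IsAlgClosed.lift (R := ℚ) (S := Qb) (M := ℂ)).toRingHom
  have := congrArg (fun x => ‖φ x‖) e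
  simp only [map_pow, _root_.norm_pow, map_add, map_natCast, map_one] at this
  rw [show ((l : ℂ) + 1) = ((l + 1 : ℕ) : ℂ) by simp, Complex.norm_natCast,
    sq_eq_sq₀ (norm_nonneg _) (Nat.cast_nonneg _)] at this
  exact (h φ).ne (by simpa using this)

/-- **row RAMF** -/
theorem ramf
    (sa : AllQ fun X => X.tw.AllL fun {_ _} _ _ _ _ _ L => ∀ w, X.IsPl w L → L.SA) : RAMF := by
  intro A e X m S L b h l P w hP hw hs hd
  rw [e] at h
  obtain ⟨Y, io, s, V, z, h⟩ := h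
  obtain ⟨Lw, h1, h2, h3⟩ := h.sph w ⟨l, P, hP, hw, hs⟩
  refine sq_ne fun φ => ?_
  have := ram _ Y m s h.sp _ h.lev z h.coc h.ne _ _ Lw h2 (sa _ Y _ _ Lw w h1) _ h3 φ
  rwa [h1.qq_eq, show Ideal.absNorm w.asIdeal = l from qw_eq hP hw hd] at this

theorem ramf_of (good : AllQ fun X => X.GOOD) : RAMF :=
  ramf fun F _ _ X O K _ _ _ _ _ L w h => (good F X O K L w h).1

end Vale.Agent.P022K.RM
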