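import Vale.Agent.P022K.F0.Wt

/-!
# P022K, block RM: unitary structure on symmetric powers; conjugacy of splittings (helper85)
-/

set_option autoImplicit false

open Polynomial Matrix UpperHalfPlane
open scoped MatrixGroups

noncomputable section

namespace Vale.Agent.P022K.RM.Ar

open Sh

section ring

variable {R : Type} [CommRing R]

theorem sy_T (w : ℕ) (A : Matrix (Fin 2) (Fin 2) R) (j k : Fin (w + 1)) :
    (w.choose j : R) * sy w A j k = w.choose k * sy w Aᵀ k j := by
  have e : ((X : R[X][X]) * C (C (A 0 0) * X + C (A 0 1)) + C (C (A 1 0) * X + C (A 1 1))) ^ w =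
      (C X * (C (C (A 0 0)) * X + C (C (A 1 0))) + (C (C (A 0 1)) * X + C (C (A 1 1)))) ^ w := by
    simp only [map_add, map_mul]
    ring
  have h1 : ∀ i, ((X : R[X][X]) * C (C (A 0 0) * X + C (A 0 1))) ^ i *
      C (C (A 1 0) * X + C (A 1 1)) ^ (w - i) * (w.choose i : R[X][X]) =
      C (C (w.choose i : R) * mon w A i) * X ^ i := fun i => by
    simp only [mon, map_mul, map_pow, map_natCast]
    ring
  have h2 : ∀ i, ((C X : R[X][X]) * (C (C (A 0 0)) * X + C (C (A 1 0)))) ^ i *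
      (C (C (A 0 1)) * X + C (C (A 1 1))) ^ (w - i) * (w.choose i : R[X][X]) =
      C (C (w.choose i : R) * X ^ i) * (mon w Aᵀ i).map C := fun i => by
    simp only [mon, map_mul, map_pow, map_natCast, Polynomial.map_mul, Polynomial.map_pow,
      Polynomial.map_add, map_C, map_X, transpose_apply, mul_pow]
    ring
  rw [add_pow, add_pow, Finset.sum_congr rfl fun i _ => h1 i,
    Finset.sum_congr rfl fun i _ => h2 i] at e
  have e' := congrArg (fun p : R[X][X] => (p.coeff j).coeff k) e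
  simp only [finsetSum_coeff] at e'
  rw [Finset.sum_eq_single_of_mem j.1 (Finset.mem_range.2 j.2) fun i _ hi => by
      rw [coeff_C_mul_X_pow, if_neg hi.symm, coeff_zero],
    Finset.sum_eq_single_of_mem k.1 (Finset.mem_range.2 k.2) fun i _ hi => by
      rw [coeff_C_mul, coeff_map, mul_right_comm, ← map_mul, coeff_C_mul_X_pow, if_neg hi.symm],
    coeff_C_mul_X_pow, if_pos rfl, coeff_C_mul, coeff_C_mul, coeff_map, mul_right_comm, ← map_mul,
    coeff_C_mul_X_pow, if_pos rfl] at e'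
  exact e'

theorem sy_smul (w : ℕ) (c : R) (A : Matrix (Fin 2) (Fin 2) R) :
    sy w (c • A) = c ^ w • sy w A := by
  ext j k
  have : mon w (c • A) j = C (c ^ w) * mon w A j := by
    rw [show c ^ w = c ^ j.1 * c ^ (w - j) by
      rw [← pow_add, Nat.add_sub_cancel' (Nat.lt_succ_iff.1 j.2)]]
    simp only [mon, Matrix.smul_apply, smul_eq_mul, map_mul, map_pow, mul_assoc, ← mul_add, mul_pow]
    ring
  rw [Matrix.smul_apply, sy_apply, sy_apply, this, coeff_C_mul, smul_eq_mul]

end ring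

/-- the square roots of the binomial coefficients -/
def dd (w : ℕ) (j : Fin (w + 1)) : ℂ := (Real.sqrt (w.choose j) : ℝ)

theorem dd_sq (w : ℕ) (j : Fin (w + 1)) : dd w j * dd w j = w.choose j := by
  rw [dd, ← Complex.ofReal_mul, Real.mul_self_sqrt (Nat.cast_nonneg _), Complex.ofReal_natCast]

theorem dd_ne (w : ℕ) (j : Fin (w + 1)) : dd w j ≠ 0 := fun h => by
  have := dd_sq w j
  rw [h, mul_zero, eq_comm, Nat.cast_eq_zero] at this
  exact (Nat.choose_pos (Nat.lt_succ_iff.1 j.2)).ne' this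

theorem dd_mul (w : ℕ) : diagonal (dd w) * diagonal (dd w)⁻¹ = 1 := by
  rw [diagonal_mul_diagonal, ← diagonal_one]
  exact congrArg diagonal (funext fun j => mul_inv_cancel₀ (dd_ne w j))

theorem dd_mul' (w : ℕ) : diagonal (dd w)⁻¹ * diagonal (dd w) = 1 := mul_eq_one_comm.1 (dd_mul w)

/-- the symmetric power in an orthonormal basis -/
def th (w : ℕ) : Matrix (Fin 2) (Fin 2) ℂ →* Matrix (Fin (w + 1)) (Fin (w + 1)) ℂ where
  toFun A := diagonal (dd w) * sy w A * diagonal (dd w)⁻¹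
  map_one' := by rw [map_one, mul_one, dd_mul]
  map_mul' A B := by
    rw [map_mul]
    simp only [mul_assoc]
    rw [← mul_assoc (diagonal (dd w)⁻¹), dd_mul', one_mul]

theorem th_apply (w : ℕ) (A : Matrix (Fin 2) (Fin 2) ℂ) (j k : Fin (w + 1)) :
    th w A j k = dd w j * sy w A j k * (dd w k)⁻¹ := by
  show (diagonal (dd w) * sy w A * diagonal (dd w)⁻¹) j k = _
  rw [mul_diagonal, diagonal_mul, Pi.inv_apply]

theorem th_star (w : ℕ) (A : Matrix (Fin 2) (Fin 2) ℂ) : (th w A)ᴴ = th w Aᴴ := by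
  ext j k
  have h1 := sy_T w (A.map (starRingEnd ℂ)) k j
  rw [sy_map, map_apply, ← dd_sq, ← dd_sq, starRingEnd_apply] at h1
  have h2 : ∀ i, star (dd w i) = dd w i := fun i => Complex.conj_ofReal _
  have := dd_ne w j
  have := dd_ne w k
  rw [conjTranspose_apply, th_apply, th_apply, star_mul', star_mul', star_inv₀, h2, h2,
    show Aᴴ = (A.map (starRingEnd ℂ))ᵀ from rfl]
  field_simp
  linear_combination h1

theorem th_smul (w : ℕ) (c : ℂ) (A : Matrix (Fin 2) (Fin 2) ℂ) :
    th w (c • A) = c ^ w • th w A := by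
  show diagonal (dd w) * sy w (c • A) * _ = c ^ w • (diagonal (dd w) * sy w A * _)
  rw [sy_smul, mul_smul_comm, smul_mul_assoc]

theorem th_cont (w : ℕ) : Continuous (th w) := by
  refine continuous_matrix fun j k => ?_
  have : ∀ A : Matrix (Fin 2) (Fin 2) ℂ, sy w A j k = MvPolynomial.eval (fun p => A p.1 p.2)
      (sy w (mvPolynomialX (Fin 2) (Fin 2) ℂ) j k) := fun A => by
    rw [← map_apply (f := MvPolynomial.eval fun p : Fin 2 × Fin 2 => A p.1 p.2), ← sy_map]
    exact congrArg (fun B => sy w B j k) (mvPolynomialX_mapMatrix_eval A).symm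
  simp only [th_apply, this]
  exact (continuous_const.mul ((MvPolynomial.continuous_eval _).comp
    (continuous_pi fun p => continuous_apply_apply p.1 p.2))).mul continuous_const

theorem th_uni (m : ℕ) {U : Matrix (Fin 2) (Fin 2) ℂ} {n : ℂ} (h0 : n ≠ 0) (h1 : star n = n)
    (h2 : Uᴴ * U = n • 1) : (n⁻¹ ^ m • th (2 * m) U)ᴴ * (n⁻¹ ^ m • th (2 * m) U) = 1 := by
  rw [conjTranspose_smul, th_star, smul_mul_smul_comm, ← map_mul, h2, th_smul, map_one, smul_smul,
    star_pow, star_inv₀, h1, ← pow_add, ← two_mul, ← mul_pow, inv_mul_cancel₀ h0, one_pow, one_smul]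

theorem kr_star {ι n : Type} [Fintype ι] [DecidableEq ι] [Fintype n] [DecidableEq n]
    (A : ι → Matrix n n ℂ) : (kr A)ᴴ = kr fun i => (A i)ᴴ := by
  ext a b
  exact star_prod _ _

theorem kr_uni {ι n : Type} [Fintype ι] [DecidableEq ι] [Fintype n] [DecidableEq n]
    {A : ι → Matrix n n ℂ} (h : ∀ i, (A i)ᴴ * A i = 1) : (kr A)ᴴ * kr A = 1 := by
  rw [kr_star, ← map_mul, ← map_one kr]
  exact congrArg kr (funext h)

theorem kr_cont {ι n : Type} [Fintype ι] [DecidableEq ι] [Fintype n] [DecidableEq n] :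
    Continuous (kr : (ι → Matrix n n ℂ) → _) := continuous_matrix fun a b =>
  continuous_finsetProd _ fun i _ => (continuous_apply_apply (a i) (b i)).comp (continuous_apply i)

theorem norm_clm {n : Type} [Fintype n] [DecidableEq n] {A : Matrix n n ℂ} (h : Aᴴ * A = 1)
    (v : EuclideanSpace ℂ n) : ‖toEuclideanCLM (n := n) (𝕜 := ℂ) A v‖ = ‖v‖ := by
  refine (ContinuousLinearMap.norm_map_iff_adjoint_comp_self _).2 ?_ v
  have := congrArg (toEuclideanCLM (n := n) (𝕜 := ℂ)) h
  rwa [map_mul, map_one, ← star_eq_conjTranspose, map_star] at this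

/-- the standard form of two anticommuting matrices -/
theorem std {A B : Matrix (Fin 2) (Fin 2) ℂ} {l μ : ℂ} (hl : l ≠ 0) (hμ : μ ≠ 0)
    (h1 : A * A = l ^ 2 • 1) (h2 : B * B = -μ ^ 2 • 1) (h3 : A * B = -(B * A)) :
    ∃ P Q : Matrix (Fin 2) (Fin 2) ℂ, P * Q = 1 ∧ A = P * !![l, 0; 0, -l] * Q ∧
      B = P * !![0, μ; -μ, 0] * Q := by
  obtain ⟨v, v0, hv⟩ : ∃ v, v ≠ 0 ∧ A *ᵥ v = l • v := by
    by_contra hn
    have h4 : A + l • 1 = 0 := by
      refine toLin'.injective (LinearMap.ext fun x => ?_)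
      by_contra h
      refine hn ⟨(A + l • 1) *ᵥ x, fun e => h (e.trans (by simp)), ?_⟩
      rw [mulVec_mulVec, mul_add, h1, ← smul_mulVec, smul_add, smul_smul, mul_smul_comm, mul_one,
        add_comm, sq]
    rw [eq_neg_of_add_eq_zero_left h4] at h3
    have h5 : (2 * l) • B = 0 := by
      rw [neg_mul, mul_neg, neg_neg, smul_mul_assoc, mul_smul_comm, one_mul, mul_one] at h3
      rw [mul_smul, two_smul]
      exact add_eq_zero_iff_neg_eq.2 h3
    rw [(smul_eq_zero.1 h5).resolve_left (mul_ne_zero two_ne_zero hl), mul_zero] at h2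
    exact hμ (by simpa using congrFun (congrFun h2 0) 0)
  obtain ⟨w, hw⟩ : ∃ w, w = -μ⁻¹ • B *ᵥ v := ⟨_, rfl⟩
  have b1 : B *ᵥ v = -μ • w := by
    rw [hw, smul_smul, neg_mul_neg, mul_inv_cancel₀ hμ, one_smul]
  have b2 : B *ᵥ w = μ • v := by
    rw [hw, mulVec_smul, mulVec_mulVec, h2, smul_mulVec, one_mulVec, smul_smul]
    congr 1
    field_simp
  have a2 : A *ᵥ w = -l • w := by
    rw [hw, mulVec_smul, mulVec_mulVec, h3, neg_mulVec, ← mulVec_mulVec, hv, mulVec_smul,
      smul_comm (-l), neg_smul l]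
  let P : Matrix (Fin 2) (Fin 2) ℂ := of fun i k => ![v i, w i] k
  have p : ∀ x, P *ᵥ x = x 0 • v + x 1 • w := fun x => funext fun i => by
    simp [P, mulVec, dotProduct, mul_comm]
  have d : IsUnit P.det := isUnit_iff_ne_zero.2 fun h => by
    obtain ⟨x, x0, hx⟩ := exists_mulVec_eq_zero_iff.2 h
    rw [p] at hx
    have h4 := congrArg (A *ᵥ ·) hx
    simp only [mulVec_add, mulVec_smul, hv, a2, mulVec_zero] at h4
    have h5 : (2 * l * x 0) • v = 0 := by
      linear_combination (norm := module) h4 + l • hx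
    have h6 : x 0 = 0 := ((mul_eq_zero.1 ((smul_eq_zero.1 h5).resolve_right v0)).resolve_left
      (mul_ne_zero two_ne_zero hl))
    rw [h6, zero_smul, zero_add, smul_eq_zero] at hx
    rcases hx with hx | hx
    · exact x0 (funext (Fin.forall_fin_two.2 ⟨h6, hx⟩))
    · rw [hx, mulVec_zero] at b2
      exact v0 ((smul_eq_zero.1 b2.symm).resolve_left hμ)
  have k : ∀ M N : Matrix (Fin 2) (Fin 2) ℂ, (∀ x, M *ᵥ P *ᵥ x = P *ᵥ N *ᵥ x) →
      M = P * N * P⁻¹ := fun M N h => by
    rw [← show M * P = P * N from toLin'.injective (LinearMap.ext fun x => by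
      simpa using h x), mul_nonsing_inv_cancel_right _ _ d]
  refine ⟨P, P⁻¹, mul_nonsing_inv _ d, k _ _ fun x => ?_, k _ _ fun x => ?_⟩
  · rw [p, p, mulVec_add, mulVec_smul, mulVec_smul, hv, a2]
    simp [mulVec, dotProduct, smul_smul, mul_comm]
  · rw [p, p, mulVec_add, mulVec_smul, mulVec_smul, b1, b2, add_comm]
    simp [mulVec, dotProduct, smul_smul, mul_comm]

end Vale.Agent.P022K.RM.Ar
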