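import Vale.Agent.P022K.RM.StQ
import Vale.Agent.P022K.RM.ArcA

/-!
# P022K, block RM: rows ARC and SRAM (helper85)
-/

set_option autoImplicit false
set_option linter.unusedSectionVars false

open Matrix UpperHalfPlane NumberField
open scoped MatrixGroups

noncomputable section

namespace Vale.Agent.P022K.RM

open Vale.Agent.P022 Sh

namespace Ar

theorem det_pos (g : GP) : 0 < ((g : GL (Fin 2) ℝ) : Matrix (Fin 2) (Fin 2) ℝ).det := g.2

/-- normalisation of the determinant -/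
def slG : GP →* SL(2, ℝ) where
  toFun g := ⟨(√((g : GL (Fin 2) ℝ) : Matrix (Fin 2) (Fin 2) ℝ).det)⁻¹ • (g : GL (Fin 2) ℝ), by
    rw [det_smul, Fintype.card_fin, inv_pow, Real.sq_sqrt (det_pos g).le,
      inv_mul_cancel₀ (det_pos g).ne']⟩
  map_one' := Subtype.ext (by simp)
  map_mul' g h := Subtype.ext (by
    simp only [Subgroup.coe_mul, Units.val_mul, det_mul]
    rw [Real.sqrt_mul (det_pos g).le, mul_inv]
    exact (smul_mul_smul_comm _ _ _ _).symm)

theorem slG_val (g : GP) : ((g : GL (Fin 2) ℝ) : Matrix (Fin 2) (Fin 2) ℝ) =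
    √((g : GL (Fin 2) ℝ) : Matrix (Fin 2) (Fin 2) ℝ).det • (slG g).1 :=
  (smul_inv_smul₀ (Real.sqrt_pos.2 (det_pos g)).ne' _).symm

theorem slG_smul (g : GP) (τ : ℍ) : slG g • τ = g • τ := by
  obtain ⟨c, c0, hs⟩ : ∃ c : ℝ, c ≠ 0 ∧ ∀ i j, slG g i j = c * (g : GL (Fin 2) ℝ) i j :=
    ⟨_, inv_ne_zero (Real.sqrt_pos.2 (det_pos g)).ne', fun _ _ => rfl⟩
  refine UpperHalfPlane.ext ?_
  rw [coe_specialLinearGroup_apply, show g • τ = (g : GL (Fin 2) ℝ) • τ from rfl,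
    coe_smul_of_det_pos g.2, num, denom,
    ← mul_div_mul_left (_ * (τ : ℂ) + (((g : GL (Fin 2) ℝ) 0 1 : ℝ) : ℂ)) _
      (show (c : ℂ) ≠ 0 by exact_mod_cast c0)]
  simp [hs, mul_add, mul_assoc]

/-- real matrices as complex matrices -/
def cx : SL(2, ℝ) →* Matrix (Fin 2) (Fin 2) ℂ where
  toFun g := g.1.map Complex.ofRealHom
  map_one' := Matrix.map_one _ (map_zero _) (map_one _)
  map_mul' _ _ := Matrix.map_mul

theorem cx_cont : Continuous cx :=
  continuous_subtype_val.matrix_map Complex.continuous_ofReal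

theorem cx_uni {g : SL(2, ℝ)} (h : g • I = I) : (cx g)ᴴ * cx g = 1 := by
  have h1 := congrArg UpperHalfPlane.coe h
  have h0 := denom_ne_zero (g : GL (Fin 2) ℝ) I
  rw [coe_specialLinearGroup_apply, div_eq_iff (by simpa [denom] using h0)] at h1
  have h2 : g 0 0 = g 1 1 := by simpa using congrArg Complex.im h1
  have h3 : g 0 1 = -g 1 0 := by simpa using congrArg Complex.re h1
  have h4 := g.det_coe
  rw [det_fin_two, h2, h3] at h4
  have h5 := congrArg Complex.ofReal h4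
  push_cast at h5
  ext i j
  fin_cases i <;> fin_cases j <;> simp [cx, mul_apply, h2, h3] <;>
    first | linear_combination h5 | ring

theorem conj_syd (m : ℕ) {g : GL (Fin 2) ℂ} {P Q U : Matrix (Fin 2) (Fin 2) ℂ} (h : P * Q = 1)
    (e : g.val = P * U * Q) : diagonal (dd (2 * m)) * sy (2 * m) Q * syd m g *
      (sy (2 * m) P * diagonal (dd (2 * m))⁻¹) = U.det⁻¹ ^ m • th (2 * m) U := by
  have h' := mul_eq_one_comm.1 h
  have d : g.val.det = U.det := by
    rw [e, det_mul, det_mul, mul_right_comm, ← det_mul, h, det_one, one_mul]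
  show _ * (((g.det⁻¹ ^ m : ℂˣ) : ℂ) • sy (2 * m) g.val) * _ =
    _ • (diagonal (dd (2 * m)) * sy (2 * m) U * _)
  rw [mul_smul_comm, smul_mul_assoc, Units.val_pow_eq_pow_val, Units.val_inv_eq_inv_val,
    GeneralLinearGroup.val_det_apply, d, mul_assoc (diagonal _), ← map_mul, mul_assoc, mul_assoc,
    ← mul_assoc (sy _ _), ← map_mul, e, mul_assoc Q, mul_assoc _ Q, h', mul_one, ← mul_assoc Q, h',
    one_mul]

variable {F : Type} [Field F] [NumberField F] {Y : QD F}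

/-- the standard splitting -/
def sm (l μ : ℂ) (t : F →+* ℂ) (x : Y.D) : Matrix (Fin 2) (Fin 2) ℂ :=
  !![t x.re + t x.imI * l, t x.imJ * μ + t x.imK * (l * μ);
    -(t x.imJ * μ) + t x.imK * (l * μ), t x.re - t x.imI * l]

theorem hom_std (ψ : Y.D →+* Matrix (Fin 2) (Fin 2) ℂ) (t : F →+* ℂ)
    (hψ : ∀ c, ψ (algebraMap F _ c) = algebraMap ℂ _ (t c)) {l μ : ℂ} (hl : l ^ 2 = t Y.a)
    (hμ : -μ ^ 2 = t Y.b) :
    ∃ P Q : Matrix (Fin 2) (Fin 2) ℂ, P * Q = 1 ∧ ∀ x, ψ x = P * sm l μ t x * Q := by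
  have l0 : l ≠ 0 := fun h => Y.a0 (by
    rw [h, zero_pow two_ne_zero, eq_comm, map_eq_zero] at hl
    exact Subtype.ext hl)
  have m0 : μ ≠ 0 := fun h => Y.b0 (by
    rw [h, zero_pow two_ne_zero, neg_zero, eq_comm, map_eq_zero] at hμ
    exact Subtype.ext hμ)
  obtain ⟨P, Q, h, h1, h2⟩ := std (A := ψ ⟨0, 1, 0, 0⟩) (B := ψ ⟨0, 0, 1, 0⟩) l0 m0
    (by
      rw [← map_mul, hl, ← Algebra.algebraMap_eq_smul_one, ← hψ]
      congr 1
      ext <;> simp [QuaternionAlgebra.algebraMap_eq])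
    (by
      rw [← map_mul, hμ, ← Algebra.algebraMap_eq_smul_one, ← hψ]
      congr 1
      ext <;> simp [QuaternionAlgebra.algebraMap_eq])
    (by
      rw [← map_mul, ← map_mul, ← map_neg]
      congr 1
      ext <;> simp)
  refine ⟨P, Q, h, fun x => ?_⟩
  have e : x = algebraMap F _ x.re + algebraMap F _ x.imI * ⟨0, 1, 0, 0⟩ +
      algebraMap F _ x.imJ * ⟨0, 0, 1, 0⟩ +
      algebraMap F _ x.imK * ((⟨0, 1, 0, 0⟩ : Y.D) * ⟨0, 0, 1, 0⟩) := by
    ext <;> simp [QuaternionAlgebra.algebraMap_eq]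
  have e' : sm l μ t x = t x.re • 1 + t x.imI • !![l, 0; 0, -l] + t x.imJ • !![0, μ; -μ, 0] +
      t x.imK • (!![l, 0; 0, -l] * !![0, μ; -μ, 0]) := by
    ext i j
    fin_cases i <;> fin_cases j <;> simp [sm, sub_eq_add_neg]
  rw [e', congrArg ψ e]
  simp only [map_add, map_mul, hψ, h1, h2]
  simp only [mul_add, add_mul, mul_smul_comm, smul_mul_assoc, mul_one, one_mul, h,
    Algebra.algebraMap_eq_smul_one, mul_assoc]
  rw [← mul_assoc Q, mul_eq_one_comm.1 h, one_mul]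

/-- two splittings above the same embedding are conjugate -/
theorem skn (ψ ψ' : Y.D →+* Matrix (Fin 2) (Fin 2) ℂ) (t : F →+* ℂ)
    (h : ∀ c, ψ (algebraMap F _ c) = algebraMap ℂ _ (t c))
    (h' : ∀ c, ψ' (algebraMap F _ c) = algebraMap ℂ _ (t c)) :
    ∃ P Q : Matrix (Fin 2) (Fin 2) ℂ, P * Q = 1 ∧ ∀ x, ψ x = P * ψ' x * Q := by
  obtain ⟨l, hl⟩ := IsAlgClosed.exists_pow_nat_eq (t Y.a) two_pos
  obtain ⟨μ, hμ⟩ := IsAlgClosed.exists_pow_nat_eq (-t Y.b) two_pos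
  obtain ⟨P, Q, h1, h2⟩ := hom_std ψ t h hl (neg_eq_iff_eq_neg.2 hμ)
  obtain ⟨P', Q', h3, h4⟩ := hom_std ψ' t h' hl (neg_eq_iff_eq_neg.2 hμ)
  have h5 := mul_eq_one_comm.1 h3
  refine ⟨P * Q', P' * Q, by rw [mul_assoc, ← mul_assoc Q', h5, one_mul, h1], fun x => ?_⟩
  rw [h2, h4]
  simp only [mul_assoc]
  rw [← mul_assoc Q', h5, one_mul, ← mul_assoc Q', h5, one_mul]

/-- at a definite place the splitting is unitary up to scalars -/
theorem uni (ψ : Y.D →+* Matrix (Fin 2) (Fin 2) ℂ) (t : F →+* ℂ) (ht : t ≠ Y.tc)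
    (h : ∀ c, ψ (algebraMap F _ c) = algebraMap ℂ _ (t c)) :
    ∃ P Q : Matrix (Fin 2) (Fin 2) ℂ, P * Q = 1 ∧ ∀ x, ∃ U : Matrix (Fin 2) (Fin 2) ℂ,
      ψ x = P * U * Q ∧ star U.det = U.det ∧ Uᴴ * U = U.det • 1 := by
  have r : ComplexEmbedding.IsReal t := ComplexEmbedding.isReal_iff.2
    (RingHom.ext fun x => Complex.conj_eq_iff_im.2 (Y.real t x))
  have e : ∀ x, t x = (r.embedding x : ℝ) := fun x => (r.coe_embedding_apply x).symm
  obtain ⟨h1, h2⟩ := Y.defi r.embedding fun q => ht (RingHom.ext fun x => by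
    rw [e, q]
    rfl)
  obtain ⟨P, Q, h3, h4⟩ := hom_std ψ t h (l := Complex.I * √(-r.embedding Y.a))
    (μ := √(-r.embedding Y.b)) (by
      rw [mul_pow, Complex.I_sq, ← Complex.ofReal_pow, Real.sq_sqrt (neg_pos.2 h1).le, e]
      simp) (by
      rw [← Complex.ofReal_pow, Real.sq_sqrt (neg_pos.2 h2).le, e]
      simp)
  refine ⟨P, Q, h3, fun x => ⟨_, h4 x, ?_⟩⟩
  rw [sm, e x.re, e x.imI, e x.imJ, e x.imK]
  generalize r.embedding x.re = x0, r.embedding x.imI = x1, r.embedding x.imJ = x2,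
    r.embedding x.imK = x3, √(-r.embedding Y.a) = α, √(-r.embedding Y.b) = β
  constructor
  · simp only [det_fin_two_of, Complex.star_def, map_sub, map_mul, map_add, map_neg,
      Complex.conj_ofReal, Complex.conj_I]
    ring
  · ext i j
    fin_cases i <;> fin_cases j <;> simp [mul_apply] <;> ring

end Ar

open Ar

open Classical in
/-- the invariants of the compact factors vanish -/
def FIX0 : Prop := ∀ (F : Type) [Field F] [NumberField F] (Y : QD F) (m : ℕ), m ≠ 0 →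
  ∀ s : Y.Sp Qb, Y.IsSp s → ∀ (φ : Qb →+* ℂ) (τ₁ : F →+* Qb) (Γ : Subgroup Y.G0), Y.tw.Fu Γ →
    ∀ v : Vw ℂ (F →+* Qb) m, (∀ γ ∈ Γ, (kr fun τ => if τ = τ₁ then 1 else
      syd m (Units.map (mp φ s τ).toMonoidHom γ.1)).mulVec v = v) → v = 0

/-- **ARC** -/
theorem arc (fx : FIX0) : ARC := by
  classical
  intro F _ _ Y m s hs φ
  have sp : ∀ τ c, mp φ s τ (algebraMap F _ c) = algebraMap ℂ _ (φ.comp τ c) := fun τ c => by
    show (s τ _).map φ = _
    rw [hs, algebraMap_eq_diagonal, algebraMap_eq_diagonal, diagonal_map (map_zero φ)]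
    rfl
  let g : (F →+* Qb) → Y.G0 →* GL (Fin 2) ℂ := fun τ =>
    (Units.map (mp φ s τ).toMonoidHom).comp Y.G0.subtype
  let sl : Y.G0 →* SL(2, ℝ) := slG.comp Y.tw.r
  have ex : ∀ τ, ∃ M N : Matrix (Fin (2 * m + 1)) (Fin (2 * m + 1)) ℂ, M * N = 1 ∧
      (φ.comp τ = Y.tc → ∀ γ, M * syd m (g τ γ) * N = Ar.th (2 * m) (cx (sl γ))) ∧
      (φ.comp τ ≠ Y.tc → ∀ γ, (M * syd m (g τ γ) * N)ᴴ * (M * syd m (g τ γ) * N) = 1) := by
    intro τ
    have k : ∀ P Q : Matrix (Fin 2) (Fin 2) ℂ, P * Q = 1 → diagonal (dd (2 * m)) * sy (2 * m) Q *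
        (sy (2 * m) P * diagonal (dd (2 * m))⁻¹) = 1 := fun P Q h => by
      rw [mul_assoc, ← mul_assoc (sy _ _), ← map_mul, mul_eq_one_comm.1 h, map_one, one_mul, dd_mul]
    by_cases h : φ.comp τ = Y.tc
    · obtain ⟨P, Q, h1, h2⟩ := skn (mp φ s τ) (Complex.ofRealHom.mapMatrix.comp Y.s) Y.tc
        (h ▸ sp τ) fun c => by
          show (Y.s _).map Complex.ofRealHom = _
          rw [Y.hs, algebraMap_eq_diagonal, algebraMap_eq_diagonal, diagonal_map (map_zero _)]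
          rfl
      refine ⟨_, _, k P Q h1, fun _ γ => ?_, fun h' => (h' h).elim⟩
      obtain ⟨d, d0, h3⟩ : ∃ d : ℂ, d ≠ 0 ∧ (Complex.ofRealHom.mapMatrix.comp Y.s) γ.1.1 =
          d • cx (sl γ) := ⟨_, Complex.ofReal_ne_zero.2 (Real.sqrt_pos.2 (det_pos (Y.tw.r γ))).ne',
        by
          refine (congrArg (·.map Complex.ofRealHom) (slG_val (Y.tw.r γ))).trans ?_
          ext i j
          simp [cx, sl]⟩
      have h4 : (cx (sl γ)).det = 1 := by
        have := Complex.ofRealHom.map_det (sl γ).1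
        rw [(sl γ).2, map_one] at this
        exact this.symm
      rw [conj_syd m h1 (h2 γ.1.1), h3, th_smul, det_smul, h4, Fintype.card_fin, smul_smul, mul_one,
        pow_mul, ← mul_pow, inv_mul_cancel₀ (pow_ne_zero _ d0), one_pow, one_smul]
    · obtain ⟨P, Q, h1, h2⟩ := uni (mp φ s τ) _ h (sp τ)
      refine ⟨_, _, k P Q h1, fun h' => (h h').elim, fun _ γ => ?_⟩
      obtain ⟨U, h3, h4, h5⟩ := h2 γ.1.1
      rw [conj_syd m h1 h3]
      refine th_uni m (fun q => (g τ γ).det.ne_zero ?_) h4 h5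
      rw [GeneralLinearGroup.val_det_apply, show (g τ γ).val = _ from h3, det_mul, det_mul, q,
        mul_zero, zero_mul]
  choose M N h1 h2 h3 using ex
  have h1' := fun τ => mul_eq_one_comm.1 (h1 τ)
  have k1 : kr M * kr N = 1 := by
    rw [← map_mul, ← map_one kr]
    exact congrArg kr (funext h1)
  have k2 := mul_eq_one_comm.1 k1
  let Ξ : (F →+* Qb) → Y.G0 →* Matrix (Fin (2 * m + 1)) (Fin (2 * m + 1)) ℂ := fun τ =>
    { toFun := fun γ => M τ * syd m (g τ γ) * N τ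
      map_one' := by rw [map_one, map_one, mul_one, h1]
      map_mul' := fun γ δ => by
        rw [map_mul, map_mul]
        simp only [mul_assoc]
        rw [← mul_assoc (N τ), h1', one_mul] }
  let R : SL(2, ℝ) →* ((F →+* Qb) → Matrix (Fin (2 * m + 1)) (Fin (2 * m + 1)) ℂ) :=
    MonoidHom.pi fun τ => if φ.comp τ = Y.tc then (Ar.th (2 * m)).comp cx else 1
  let K : Y.G0 →* ((F →+* Qb) → Matrix (Fin (2 * m + 1)) (Fin (2 * m + 1)) ℂ) :=
    MonoidHom.pi fun τ => if φ.comp τ = Y.tc then 1 else Ξ τ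
  have r : ∀ x τ, R x τ = if φ.comp τ = Y.tc then Ar.th (2 * m) (cx x) else 1 := fun x τ => by
    show (if φ.comp τ = Y.tc then (Ar.th (2 * m)).comp cx else 1) x = _
    split_ifs <;> rfl
  have k : ∀ x τ, K x τ = if φ.comp τ = Y.tc then 1 else M τ * syd m (g τ x) * N τ := fun x τ => by
    show (if φ.comp τ = Y.tc then 1 else Ξ τ) x = _
    split_ifs <;> rfl
  let E := (toEuclideanCLM (n := (F →+* Qb) → Fin (2 * m + 1)) (𝕜 := ℂ)).toRingEquiv.toMonoidHom
  have hE : ∀ A v, E A v = WithLp.toLp 2 (A *ᵥ v.ofLp) := fun _ _ => rfl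
  refine ⟨{ e := (toLin'OfInv k2 k1).trans (WithLp.linearEquiv 2 ℂ _).symm
            sl := sl
            act := fun γ τ => slG_smul _ τ
            ρ₁ := E.comp (kr.comp R)
            cont := ?_
            κ := E.comp (kr.comp K)
            eq := fun γ v => ?_
            com := fun x γ v => ?_
            uni := fun γ => norm_clm (kr_uni fun τ => ?_)
            iso := fun x hx => norm_clm (kr_uni fun τ => ?_) }, fun Γ hΓ v hv x => ?_⟩
  · refine (LinearMap.continuous_of_finiteDimensional (toEuclideanCLM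
      (n := (F →+* Qb) → Fin (2 * m + 1)) (𝕜 := ℂ)).toAlgEquiv.toLinearMap).comp
      (kr_cont.comp (continuous_pi fun τ => ?_))
    simp only [r]
    split_ifs
    · exact (th_cont _).comp cx_cont
    · exact continuous_const
  · show WithLp.toLp 2 (kr M *ᵥ kr (fun τ => syd m (g τ γ)) *ᵥ v) =
      WithLp.toLp 2 (kr (R (sl γ)) *ᵥ kr (K γ) *ᵥ kr M *ᵥ v)
    simp only [mulVec_mulVec, ← map_mul]
    congr 3
    funext τ
    simp only [Pi.mul_apply, r, k]
    split_ifs with h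
    · rw [← h2 τ h, one_mul, mul_assoc, h1', mul_one]
    · rw [one_mul, mul_assoc, h1', mul_one]
  · show WithLp.toLp 2 (kr (R x) *ᵥ kr (K γ) *ᵥ v.ofLp) =
      WithLp.toLp 2 (kr (K γ) *ᵥ kr (R x) *ᵥ v.ofLp)
    simp only [mulVec_mulVec, ← map_mul]
    congr 3
    funext τ
    simp only [Pi.mul_apply, r, k]
    split_ifs <;> rw [one_mul, mul_one]
  · rw [k]
    split_ifs with h
    · rw [conjTranspose_one, one_mul]
    · exact h3 τ h γ
  · rw [r]
    split_ifs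
    · rw [th_star, ← map_mul, cx_uni hx, map_one]
    · rw [conjTranspose_one, one_mul]
  · show WithLp.toLp 2 (kr (R x) *ᵥ v.ofLp) = v
    by_cases h : R x = 1
    · rw [h, map_one, one_mulVec]
    obtain ⟨τ₁, h4⟩ := Function.ne_iff.1 h
    rw [r] at h4
    have h5 : φ.comp τ₁ = Y.tc := by
      by_contra q
      exact h4 (if_neg q)
    have h6 : ∀ τ, φ.comp τ = Y.tc ↔ τ = τ₁ := fun τ => ⟨fun q => RingHom.ext fun c =>
      φ.injective (RingHom.congr_fun (q.trans h5.symm) c), fun q => q ▸ h5⟩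
    have m0 : m ≠ 0 := by
      rintro rfl
      refine h4 ((if_pos h5).trans (Matrix.ext fun i j => ?_))
      rw [Subsingleton.elim (α := Fin 1) i 0, Subsingleton.elim (α := Fin 1) j 0, th_apply]
      simp [sy_apply, mon, dd]
    have := fx F Y m m0 s hs φ τ₁ Γ hΓ (kr N *ᵥ v.ofLp) fun γ hγ => by
      have q : kr (K γ) *ᵥ v.ofLp = v.ofLp := congrArg WithLp.ofLp (hv γ hγ)
      conv_rhs => rw [← q]
      simp only [mulVec_mulVec, ← map_mul]
      congr 2
      funext τ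
      simp only [Pi.mul_apply, k, h6]
      split_ifs
      · rw [one_mul, mul_one]
      · rw [← mul_assoc, ← mul_assoc, h1', one_mul]
        rfl
    have v0 : v.ofLp = 0 := by rw [← one_mulVec v.ofLp, ← k1, ← mulVec_mulVec, this, mulVec_zero]
    rw [v0, mulVec_zero, ← v0]

namespace Ar

section

variable {G0 G : Type} [Group G0] [Group G] {T : Tw G0 G} {U : Subgroup G} {Λ Λ' B B' : Type}
  [CommRing Λ] [AddCommGroup B] [Module Λ B] [CommRing Λ'] [AddCommGroup B'] [Module Λ' B']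
  {ρ : Representation Λ G0 B} {ρ' : Representation Λ' G0 B'} (l : B →+ B')
  (h : ∀ γ v, l (ρ γ v) = ρ' γ (l v)) {z : G0 → G → B}

include h

theorem Z1_l (hz : z ∈ T.Z1 ρ U) : (fun γ x => l (z γ x)) ∈ T.Z1 ρ' U :=
  ⟨fun γ x u hu => congrArg l (hz.1 γ x u hu), fun γ δ => funext fun x => by
    show l (z (γ * δ) x) = l (z γ x) + ρ' γ (l _)
    rw [hz.2.1, ← h, ← map_add]
    rfl, fun γ hγ => funext fun x => by
    show l (z γ x) = 0
    rw [hz.2.2 γ hγ, Pi.zero_apply, map_zero]⟩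

theorem B1_l (hz : z ∈ T.B1 ρ U) : (fun γ x => l (z γ x)) ∈ T.B1 ρ' U := by
  obtain ⟨f, h1, h2⟩ := hz
  refine ⟨fun x => l (f x), fun x u hu => congrArg l (h1 x u hu), fun γ => funext fun x => ?_⟩
  show l (z γ x) = ρ' γ (l _) - l (f x)
  rw [h2, ← h, ← map_sub]
  rfl

theorem Eig_l (hl : Function.Injective l) {O : Set G} {c : Λ} {c' : Λ'}
    (hc : ∀ v, l (c • v) = c' • l v) (hz : T.Eig ρ U z (hk O U) c) :
    T.Eig ρ' U (fun γ x => l (z γ x)) (hk O U) c' := by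
  have := B1_l l h hz
  unfold Tw.Eig
  convert this using 1
  funext γ x
  show hk O U (fun x => l (z γ x)) x - c' • l (z γ x) = l (hk O U (z γ) x - c • z γ x)
  rw [map_sub, hc, hk, hk, l.map_finsum_of_injective hl]
  simp only [l.map_finsum_Prop]

end

theorem ex_fun {K L : Type} [Field K] [Field L] (φ : K →+* L) :
    ∃ l : L →+ K, (∀ a c, l (φ a * c) = a * l c) ∧ ∀ a, l (φ a) = a := by
  let := φ.toAlgebra
  obtain ⟨l, hl⟩ := (Algebra.linearMap K L).exists_leftInverse_of_injective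
    (LinearMap.ker_eq_bot.2 φ.injective)
  exact ⟨l.toAddMonoidHom, fun a c => l.map_smul a c, fun a => LinearMap.congr_fun hl a⟩

theorem syd_map {R S : Type} [CommRing R] [CommRing S] (φ : R →+* S) (m : ℕ) (g : GL (Fin 2) R)
    (g' : GL (Fin 2) S) (h : g'.val = g.val.map φ) : syd m g' = (syd m g).map φ := by
  have d : g'.det = Units.map φ.toMonoidHom g.det := Units.ext (by
    rw [GeneralLinearGroup.val_det_apply, h]
    exact (φ.map_det _).symm)
  show ((g'.det⁻¹ ^ m : Sˣ) : S) • sy (2 * m) g'.val =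
    (((g.det⁻¹ ^ m : Rˣ) : R) • sy (2 * m) g.val).map φ
  rw [d, h, sy_map, ← map_inv, ← map_pow]
  ext i j
  exact (map_mul φ _ _).symm

variable {F : Type} [Field F] [NumberField F] {Y : QD F}

open Classical in
theorem rw_mp (m : ℕ) (s : Y.Sp Qb) (φ : Qb →+* ℂ) (γ : Y.G0) :
    ∃ A : Matrix _ _ Qb, (∀ v, Y.rw m s γ v = A *ᵥ v) ∧
      ∀ v, Y.rw m (mp φ s) γ v = A.map φ *ᵥ v := by
  refine ⟨_, fun _ => rfl, fun v => congrArg (· *ᵥ v) (Matrix.ext fun a b => ?_)⟩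
  refine Eq.trans (Finset.prod_congr rfl fun τ _ => ?_) (map_prod φ _ _).symm
  exact congrFun (congrFun (syd_map φ m _ _ rfl) _) _

open Classical in
/-- change of coefficients -/
theorem ex_co (m : ℕ) (s : Y.Sp Qb) (φ : Qb →+* ℂ) {U : Subgroup Y.G}
    {z : Y.G0 → Y.G → Vw Qb (F →+* Qb) m} (h1 : z ∈ Y.tw.Z1 (Y.rw m s) U)
    (h2 : z ∉ Y.tw.B1 (Y.rw m s) U) : ∃ z' ∈ Y.tw.Z1 (Y.rw m (mp φ s)) U,
      z' ∉ Y.tw.B1 (Y.rw m (mp φ s)) U ∧ ∀ O c, Y.tw.Eig (Y.rw m s) U z (hk O U) c →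
        Y.tw.Eig (Y.rw m (mp φ s)) U z' (hk O U) (φ c) := by
  obtain ⟨l, l1, l2⟩ := ex_fun φ
  let a : Vw Qb (F →+* Qb) m →+ Vw ℂ (F →+* Qb) m := φ.toAddMonoidHom.compLeft _
  let b : Vw ℂ (F →+* Qb) m →+ Vw Qb (F →+* Qb) m := l.compLeft _
  have ha : ∀ γ v, a (Y.rw m s γ v) = Y.rw m (mp φ s) γ (a v) := fun γ v => by
    obtain ⟨A, h3, h4⟩ := rw_mp m s φ γ
    rw [h3, h4]
    exact funext fun i => φ.map_mulVec A v i
  have hb : ∀ γ v, b (Y.rw m (mp φ s) γ v) = Y.rw m s γ (b v) := fun γ v => by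
    obtain ⟨A, h3, h4⟩ := rw_mp m s φ γ
    rw [h3, h4]
    exact funext fun i => (map_sum l _ _).trans (Finset.sum_congr rfl fun k _ => l1 _ _)
  refine ⟨_, Z1_l a ha h1, fun h => h2 ?_, fun O c => Eig_l a ha
    (fun v w q => funext fun i => φ.injective (congrFun q i)) fun v => funext fun i => map_mul φ _ _⟩
  convert B1_l b hb h using 1
  exact funext fun γ => funext fun x => funext fun i => (l2 _).symm

end Ar

open Classical in
/-- **SRAM** -/
theorem sram : SRAM := fun ok arc => ⟨fun h F _ _ Y m s hs U hU z h1 h2 O K _ _ _ _ _ L a sa c e φ => by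
  obtain ⟨A, hA⟩ := arc F Y m s hs φ
  obtain ⟨z', h3, h4, h5⟩ := ex_co m s φ h1 h2
  exact h _ _ Y.tw (ok F Y) _ _ _ A hA U hU z' h3 h4 O K L a sa _ (h5 _ c e),
  fun h F _ _ Y m s hs U hU z h1 h2 O a c e φ => by
  obtain ⟨A, -⟩ := arc F Y m s hs φ
  obtain ⟨z', h3, h4, h5⟩ := ex_co m s φ h1 h2
  exact h _ _ Y.tw (ok F Y) _ _ _ A U hU z' h3 h4 O a _ (h5 _ c e)⟩

end Vale.Agent.P022K.RM
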