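import Vale.Agent.P022K.F0.Sha
import Vale.Agent.P022K.F0.Wt

/-!
# P022K, block RM: Cesàro limits, coboundaries are closed
-/

set_option autoImplicit false
set_option linter.unusedSectionVars false

open Filter Topology Finset

noncomputable section

namespace Vale.Agent.P022K.RM

open Sh

section ces

variable {X V : Type} [NormedAddCommGroup V] [NormedSpace ℂ V]

/-- bounded by `b` -/
def Bd (b : ℝ) (φ : X → V) : Prop := ∀ x, ‖φ x‖ ≤ b

/-- a contraction -/
def Ct (P : Module.End ℂ (X → V)) : Prop := ∀ b φ, Bd b φ → Bd b (P φ)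

/-- the means -/
def av {M : Type} [AddCommGroup M] [Module ℂ M] (P : Module.End ℂ M) (n : ℕ) : Module.End ℂ M :=
  ((n + 1 : ℕ) : ℂ)⁻¹ • ∑ k ∈ range (n + 1), P ^ k

theorem av_apply {M : Type} [AddCommGroup M] [Module ℂ M] (P : Module.End ℂ M) (n : ℕ) (φ : M) :
    av P n φ = ((n + 1 : ℕ) : ℂ)⁻¹ • ∑ k ∈ range (n + 1), (P ^ k) φ := by
  simp [av, LinearMap.sum_apply]

theorem av_com {M N : Type} [AddCommGroup M] [Module ℂ M] [AddCommGroup N] [Module ℂ N]
    {P : Module.End ℂ M} {Q : Module.End ℂ N} (f : M →ₗ[ℂ] N) (h : ∀ φ, Q (f φ) = f (P φ)) (n : ℕ)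
    (φ : M) : av Q n (f φ) = f (av P n φ) := by
  have : ∀ k, (Q ^ k) (f φ) = f ((P ^ k) φ) := fun k => by
    induction k with
    | zero => rfl
    | succ k ih => rw [pow_succ', pow_succ', Module.End.mul_apply, Module.End.mul_apply, ih, h]
  simp only [av_apply, this, map_smul, map_sum]

theorem av_sub_mem {M : Type} [AddCommGroup M] [Module ℂ M] {P : Module.End ℂ M}
    {N : Submodule ℂ M} (h : ∀ φ ∈ N, P φ ∈ N) {z : M} (hz : P z - z ∈ N) (n : ℕ) :
    av P n z - z ∈ N := by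
  have : ∀ k, (P ^ k) z - z ∈ N := fun k => by
    induction k with
    | zero => simp
    | succ k ih =>
      have := add_mem (h _ ih) hz
      rwa [map_sub, sub_add_sub_cancel, ← Module.End.mul_apply, ← pow_succ'] at this
  have n0 : ((n + 1 : ℕ) : ℂ) ≠ 0 := Nat.cast_ne_zero.2 n.succ_ne_zero
  have e : av P n z - z = ((n + 1 : ℕ) : ℂ)⁻¹ • ∑ k ∈ range (n + 1), ((P ^ k) z - z) := by
    rw [av_apply, sum_sub_distrib, smul_sub, sum_const, card_range, ← Nat.cast_smul_eq_nsmul ℂ,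
      smul_smul, inv_mul_cancel₀ n0, one_smul]
  rw [e]
  exact N.smul_mem _ (sum_mem fun k _ => this k)

variable {P : Module.End ℂ (X → V)}

theorem Ct.pow (h : Ct P) (k : ℕ) : Ct (P ^ k) := fun b φ hφ => by
  induction k with
  | zero => exact hφ
  | succ k ih => rw [pow_succ']; exact h b _ ih

theorem Ct.av (h : Ct P) (n : ℕ) : Ct (av P n) := fun b φ hφ x => by
  have n0 : (0 : ℝ) < (n + 1 : ℕ) := by positivity
  rw [av_apply, Pi.smul_apply, norm_smul, norm_inv, Complex.norm_natCast, inv_mul_le_iff₀ n0,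
    Finset.sum_apply]
  refine (norm_sum_le _ _).trans ((sum_le_sum fun k _ => h.pow k b φ hφ x).trans ?_)
  simp

variable (P) in
/-- the limit of the means -/
def lm (φ : X → V) (x : X) : V := limUnder (hyperfilter ℕ) fun n => av P n φ x

variable [FiniteDimensional ℂ V]

theorem Ct.tendsto (h : Ct P) {b : ℝ} {φ : X → V} (hφ : Bd b φ) (x : X) :
    Tendsto (fun n => RM.av P n φ x) (hyperfilter ℕ) (𝓝 (lm P φ x)) := by
  have := FiniteDimensional.proper ℂ V
  obtain ⟨v, -, hv⟩ := isCompact_iff_ultrafilter_le_nhds'.1 (isCompact_closedBall (0 : V) b)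
    ((hyperfilter ℕ).map fun n => RM.av P n φ x)
    (Ultrafilter.mem_map.2 (univ_mem' fun n => mem_closedBall_zero_iff.2 (h.av n b φ hφ x)))
  exact tendsto_nhds_limUnder ⟨v, hv⟩

theorem Ct.lm_bd (h : Ct P) {b : ℝ} {φ : X → V} (hφ : Bd b φ) : Bd b (lm P φ) := fun x =>
  le_of_tendsto' (h.tendsto hφ x).norm fun n => h.av n b φ hφ x

theorem Ct.lm_sub (h : Ct P) {b b' : ℝ} {φ ψ : X → V} (hφ : Bd b φ) (hψ : Bd b' ψ) :
    lm P (φ - ψ) = lm P φ - lm P ψ := funext fun x =>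
  tendsto_nhds_unique (h.tendsto (b := b + b') (fun y => (norm_sub_le _ _).trans
    (add_le_add (hφ y) (hψ y))) x) (((h.tendsto hφ x).sub (h.tendsto hψ x)).congr fun n =>
      (congrFun (map_sub (RM.av P n) φ ψ) x).symm)

theorem Ct.lm_com (h : Ct P) {b : ℝ} {φ : X → V} (hφ : Bd b φ) (κ : V →L[ℂ] V) (t : X → X)
    (c : ∀ ψ : X → V, (P fun x => κ (ψ (t x))) = fun x => κ (P ψ (t x))) (x : X) :
    lm P (fun x => κ (φ (t x))) x = κ (lm P φ (t x)) := by
  let f : Module.End ℂ (X → V) :=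
    { toFun ψ := fun x => κ (ψ (t x))
      map_add' _ _ := funext fun x => by simp
      map_smul' _ _ := funext fun x => by simp }
  refine tendsto_nhds_unique (h.tendsto (b := ‖κ‖ * b) (fun y => (κ.le_opNorm _).trans
    (mul_le_mul_of_nonneg_left (hφ _) (norm_nonneg _))) x) ?_
  have := (κ.continuous.tendsto _).comp (h.tendsto hφ (t x))
  exact this.congr fun n => (congrFun (av_com f c n φ) x).symm

theorem Ct.lm_fix (h : Ct P) {b : ℝ} {φ : X → V} (hφ : Bd b φ) (x : X)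
    (c : ∀ (u : ℕ → X → V) (ψ : X → V), (∀ y, Tendsto (fun n => u n y) (hyperfilter ℕ) (𝓝 (ψ y))) →
      Tendsto (fun n => P (u n) x) (hyperfilter ℕ) (𝓝 (P ψ x))) : P (lm P φ) x = lm P φ x := by
  have e : ∀ n, P (RM.av P n φ) x = RM.av P n φ x +
      ((n + 1 : ℕ) : ℂ)⁻¹ • ((P ^ (n + 1)) φ x - φ x) := fun n => by
    have : P (∑ k ∈ range (n + 1), (P ^ k) φ) =
        ∑ k ∈ range (n + 1), (P ^ k) φ + ((P ^ (n + 1)) φ - φ) := by
      rw [map_sum, ← add_sub_assoc, ← sum_range_succ (fun k => (P ^ k) φ),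
        sum_range_succ' (fun k => (P ^ k) φ)]
      simp [pow_succ']
    rw [av_apply, map_smul, this, smul_add]
    rfl
  have t : Tendsto (fun n : ℕ => ((n + 1 : ℕ) : ℂ)⁻¹ • ((P ^ (n + 1)) φ x - φ x)) atTop (𝓝 0) := by
    refine squeeze_zero_norm (a := fun n : ℕ => (1 / ((n : ℝ) + 1)) * (b + b)) (fun n => ?_)
      (by simpa using tendsto_one_div_add_atTop_nhds_zero_nat.mul_const (b + b))
    rw [norm_smul, norm_inv, Complex.norm_natCast, one_div, Nat.cast_succ]
    exact mul_le_mul_of_nonneg_left ((norm_sub_le _ _).trans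
      (add_le_add (h.pow _ b φ hφ x) (hφ x))) (by positivity)
  have t' := t.mono_left (Nat.hyperfilter_le_atTop)
  refine tendsto_nhds_unique (c _ _ (h.tendsto hφ)) ?_
  simpa [e] using (h.tendsto hφ x).add t'

end ces

section hecke

variable {G0 G : Type} [Group G0] [Group G] {T : Tw G0 G} {U : Subgroup G} {O : Set G}

/-- the normalised correspondence -/
def pm (V : Type) [AddCommGroup V] [Module ℂ V] (h : Cor U O U) (c : ℂ) : Module.End ℂ (G → V) :=
  c⁻¹ • ∑ i ∈ h.fin.toFinset, LinearMap.funLeft ℂ V fun x => x * i.out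

section

variable {V : Type} [AddCommGroup V] [Module ℂ V] (h : Cor U O U) (c : ℂ)

theorem pm_apply (φ : G → V) (x : G) :
    pm V h c φ x = c⁻¹ • ∑ i ∈ h.fin.toFinset, φ (x * i.out) := by
  simp [pm, LinearMap.sum_apply, Finset.sum_apply, LinearMap.funLeft_apply]

theorem pm_eq (φ : G → V) : pm V h c φ = c⁻¹ • hk O U φ :=
  funext fun x => by rw [pm_apply, Pi.smul_apply, hk_eq h]

theorem pm_inv {φ : G → V} (hφ : Inv U φ) : Inv U (pm V h c φ) := fun x u hu => by
  rw [pm_eq, Pi.smul_apply, Pi.smul_apply, hk_inv h hφ x u hu]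

theorem av_inv {φ : G → V} (hφ : Inv U φ) (n : ℕ) : Inv U (av (pm V h c) n φ) := fun x u hu => by
  have : ∀ k, Inv U ((pm V h c ^ k) φ) := fun k => by
    induction k with
    | zero => exact hφ
    | succ k ih => rw [pow_succ']; exact pm_inv h c ih
  simp only [av_apply, Pi.smul_apply, Finset.sum_apply, this _ x u hu]

theorem pm_com (κ : V →ₗ[ℂ] V) (y : G) (ψ : G → V) :
    (pm V h c fun x => κ (ψ (y * x))) = fun x => κ (pm V h c ψ (y * x)) :=
  funext fun x => by simp only [pm_apply, map_smul, map_sum, mul_assoc]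

variable (ρ : Representation ℂ G0 V)

/-- **Shapiro**, injectivity -/
theorem shapiro {z : G0 → G → V} (hz : z ∈ T.Z1 ρ U)
    (h0 : ∀ x, ∃ v, ∀ γ ∈ T.Gam U x, z γ x = ρ γ v - v) : z ∈ T.B1 ρ U := by
  choose v hv using h0
  obtain ⟨h1, h2, -⟩ := hz
  have h2' : ∀ γ δ x, z (γ * δ) x = z γ x + ρ γ (z δ ((T.j γ)⁻¹ * x)) := fun γ δ x => by
    rw [h2]; rfl
  refine ⟨fun x => ρ (dl G0 (T.xm U x)) (v (Tw.rq (T.cls U x))) - z (dl G0 (T.xm U x)) x,
    fun x u hu => ?_, fun γ => funext fun x => ?_⟩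
  · beta_reduce
    rw [Tw.xm_mul _ hu, h1 _ _ _ hu, Tw.cls_mul' _ hu]
  · have m := dl_mem γ (T.xm U x)
    rw [Tw.stab_o] at m
    have e := h2' (dl G0 (T.xm U x)) ((dl G0 (T.xm U x))⁻¹ * γ * dl G0 (γ⁻¹ • T.xm U x)) x
    have e' : T.xm U ((T.j (dl G0 (T.xm U x)))⁻¹ * x) = T.xm U (Tw.rq (T.cls U x)) := by
      rw [← map_inv, ← Tw.smul_xm, inv_smul_eq_iff, Tw.xm_rq]
      exact (dl_smul _).symm
    rw [Tw.inv_xm (h1 _) e', hv (Tw.rq (T.cls U x)) _ m, map_sub, ← Module.End.mul_apply,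
      ← map_mul, mul_assoc, mul_inv_cancel_left, h2', map_mul, Module.End.mul_apply] at e
    simp only [Pi.sub_apply, Tw.lt]
    rw [← map_inv, Tw.cls_mul, ← Tw.smul_xm, map_inv, map_sub]
    linear_combination (norm := abel) e

end

variable {V : Type} [NormedAddCommGroup V] [NormedSpace ℂ V] (h : Cor U O U) {c : ℂ}

theorem pm_bd {b : ℝ} {φ : G → V} (hφ : Bd b φ) :
    Bd (‖c‖⁻¹ * (h.fin.toFinset.card * b)) (pm V h c φ) := fun x => by
  rw [pm_apply, norm_smul, norm_inv]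
  refine mul_le_mul_of_nonneg_left ((norm_sum_le _ _).trans
    ((sum_le_sum fun i _ => hφ _).trans ?_)) (by positivity)
  simp

theorem pm_ct (c0 : c ≠ 0) (hc : (h.fin.toFinset.card : ℝ) ≤ ‖c‖) : Ct (pm V h c) :=
  fun b φ hφ x => (pm_bd h hφ x).trans (by
    rw [inv_mul_le_iff₀ (norm_pos_iff.2 c0)]
    exact mul_le_mul_of_nonneg_right hc ((norm_nonneg _).trans (hφ x)))

theorem pm_tendsto {F : Filter ℕ} (x : G) (u : ℕ → G → V) (ψ : G → V)
    (t : ∀ y, Tendsto (fun n => u n y) F (𝓝 (ψ y))) :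
    Tendsto (fun n => pm V h c (u n) x) F (𝓝 (pm V h c ψ x)) := by
  simp only [pm_apply]
  exact (tendsto_finsetSum _ fun i _ => t _).const_smul _

variable [FiniteDimensional ℂ V] (ρ : Representation ℂ G0 V)

/-- a pointwise limit of coboundaries is a coboundary -/
theorem closed {z : G0 → G → V} (hz : z ∈ T.Z1 ρ U) {F : Filter ℕ} [F.NeBot]
    (β : ℕ → G0 → G → V) (hβ : ∀ n, β n ∈ T.B1 ρ U)
    (t : ∀ γ x, Tendsto (fun n => β n γ x) F (𝓝 (z γ x))) : z ∈ T.B1 ρ U := by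
  refine shapiro ρ hz fun x => ?_
  let D : V →ₗ[ℂ] (T.Gam U x → V) := LinearMap.pi fun γ => ρ γ - 1
  have cl : IsClosed (LinearMap.range D : Set (T.Gam U x → V)) :=
    Submodule.closed_of_finiteDimensional _
  obtain ⟨v, hv⟩ := cl.mem_of_tendsto (f := fun n (γ : T.Gam U x) => β n γ x)
    (x := fun γ : T.Gam U x => z γ x) (tendsto_pi_nhds.2 fun γ => t γ x)
    (.of_forall fun n => by
      obtain ⟨f, hf, e⟩ := hβ n
      refine ⟨f x, funext fun γ => ?_⟩
      rw [e, Pi.sub_apply, Tw.lt, Tw.inv_xm hf (Tw.xm_gam γ.2)]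
      rfl)
  exact ⟨v, fun γ hγ => (congrFun hv ⟨γ, hγ⟩).symm⟩

/-- a class with a primitive whose differences are killed by the means is zero -/
theorem zero_of (c0 : c ≠ 0) {z : G0 → G → V} (hz : z ∈ T.Z1 ρ U) (he : T.Eig ρ U z (hk O U) c)
    (f₀ : G → V) (h0 : Inv U f₀) (d : G0 → G → V) (e : ∀ γ, z γ = T.lt ρ γ (f₀ + d γ) - f₀)
    {F : Filter ℕ} [F.NeBot] (t : ∀ γ x, Tendsto (fun n => av (pm V h c) n (d γ) x) F (𝓝 0)) :
    z ∈ T.B1 ρ U := by
  let Q : Module.End ℂ (G0 → G → V) := (pm V h c).compLeft G0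
  let ev : G0 → (G0 → G → V) →ₗ[ℂ] G → V := fun γ => LinearMap.proj γ
  let lt : G0 → Module.End ℂ (G → V) := fun γ =>
    { toFun := T.lt ρ γ
      map_add' _ _ := funext fun x => by simp [Tw.lt]
      map_smul' _ _ := funext fun x => by simp [Tw.lt] }
  have cm : ∀ γ φ, pm V h c (lt γ φ) = lt γ (pm V h c φ) := fun γ φ => pm_com h c (ρ γ) _ φ
  have s : ∀ n, av Q n z - z ∈ T.B1 ρ U := av_sub_mem (by
    rintro β ⟨f, hf, e⟩
    exact ⟨pm V h c f, pm_inv h c hf, fun γ => by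
      change pm V h c (β γ) = _
      rw [e, map_sub]
      exact congrArg (· - _) (cm γ f)⟩) (by
    convert (T.B1 ρ U).smul_mem c⁻¹ he using 1
    funext γ
    rw [smul_sub, smul_smul, inv_mul_cancel₀ c0, one_smul]
    exact congrArg (· - z γ) (pm_eq h c _))
  refine closed ρ hz (F := F) (fun n => (fun γ => T.lt ρ γ (av (pm V h c) n f₀) -
    av (pm V h c) n f₀) - (av Q n z - z)) (fun n => sub_mem ⟨_, av_inv h c h0 n, fun _ => rfl⟩
      (s n)) fun γ x => ?_
  have k : ∀ n, av Q n z γ = lt γ (av (pm V h c) n f₀) + lt γ (av (pm V h c) n (d γ)) -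
      av (pm V h c) n f₀ := fun n => by
    rw [show av Q n z γ = av (pm V h c) n (z γ) from
      (av_com (P := Q) (ev γ) (fun _ => rfl) n z).symm, e, map_sub,
      show T.lt ρ γ (f₀ + d γ) = lt γ (f₀ + d γ) from rfl, av_com (lt γ) (cm γ), map_add, map_add]
  have := (((ρ γ).continuous_of_finiteDimensional.tendsto 0).comp (t γ ((T.j γ)⁻¹ * x))).const_sub
    (z γ x)
  rw [map_zero, sub_zero] at this
  refine this.congr fun n => ?_
  simp only [Pi.sub_apply, k, Pi.add_apply, Function.comp]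
  change _ = lt γ _ x - _ - (lt γ _ x + ρ γ _ - _ - _)
  abel

end hecke

end Vale.Agent.P022K.RM
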