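import Vale.Agent.P022K.RM.Arc
import Vale.Agent.P022.H565.Fre

/-!
# P022K, block RM: a cocompact group has no invariants in the other factors
-/

set_option autoImplicit false
set_option linter.all false

open NumberField Polynomial UpperHalfPlane
open scoped MatrixGroups

noncomputable section

namespace Vale.Agent.P022K.RM

open Vale.Agent.P022 Sh

namespace Fx

/-- complex matrices -/
abbrev M2 : Type := Matrix (Fin 2) (Fin 2) ℂ

/-- relatively compact families -/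
def Rc {α X : Type} [TopologicalSpace X] (f : α → X) : Prop := ∃ K, IsCompact K ∧ ∀ x, f x ∈ K

section

variable {α X Y : Type} [TopologicalSpace X] [TopologicalSpace Y]

theorem Rc.map {f : α → X} (h : Rc f) {g : X → Y} (hg : Continuous g) : Rc fun x => g (f x) := by
  obtain ⟨K, h1, h2⟩ := h
  exact ⟨_, h1.image hg, fun x => ⟨_, h2 x, rfl⟩⟩

theorem Rc.comp {β : Type} {f : α → X} (h : Rc f) (g : β → α) : Rc fun x => f (g x) :=
  h.imp fun K hK => ⟨hK.1, fun x => hK.2 _⟩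

theorem Rc.prod {f : α → X} {g : α → Y} (h : Rc f) (h' : Rc g) : Rc fun x => (f x, g x) := by
  obtain ⟨K, h1, h2⟩ := h
  obtain ⟨K', h3, h4⟩ := h'
  exact ⟨_, h1.prod h3, fun x => ⟨h2 x, h4 x⟩⟩

theorem Rc.pi {ι : Type} {f : α → ι → X} (h : ∀ i, Rc fun x => f x i) : Rc f := by
  choose K h1 h2 using h
  exact ⟨_, isCompact_univ_pi h1, fun x i _ => h2 i x⟩

theorem rc_const (c : X) : Rc fun _ : α => c := ⟨{c}, isCompact_singleton, fun _ => rfl⟩

theorem rc_iff {f : α → ℂ} : Rc f ↔ ∃ C, ∀ x, ‖f x‖ ≤ C :=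
  ⟨fun ⟨_, h1, h2⟩ => (h1.isBounded.exists_norm_le).imp fun _ h x => h _ (h2 x),
    fun ⟨C, h⟩ => ⟨_, isCompact_closedBall 0 C, fun x => mem_closedBall_zero_iff.2 (h x)⟩⟩

theorem Rc.mv {n : Type} [Fintype n] {A : α → Matrix n n ℂ} {v : α → n → ℂ} (h : Rc A)
    (h' : Rc v) : Rc fun x => (A x).mulVec (v x) :=
  (h.prod h').map (continuous_fst.matrix_mulVec continuous_snd)

end

theorem sy_cont (w : ℕ) : Continuous fun A : M2 => sy w A :=
  continuous_matrix fun j k => by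
    have : (fun A : M2 => sy w A j k) = fun A : M2 => MvPolynomial.eval (fun q => A q.1 q.2)
        (sy w (Matrix.of fun a b => (MvPolynomial.X (a, b) : MvPolynomial (Fin 2 × Fin 2) ℂ))
          j k) := funext fun A => by
      rw [← Matrix.map_apply (f := MvPolynomial.eval _), ← sy_map]
      refine congrArg (fun B => sy w B j k) ?_
      ext a b
      simp
    rw [this]
    exact (MvPolynomial.continuous_eval _).comp (by fun_prop)

theorem sy_smul {R : Type} [CommRing R] (w : ℕ) (c : R) (A : Matrix (Fin 2) (Fin 2) R) :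
    sy w (c • A) = c ^ w • sy w A := by
  ext j k
  have : mon w (c • A) j = C (c ^ w) * mon w A j := by
    have e : c ^ w = c ^ (j : ℕ) * c ^ (w - j) := by
      rw [← pow_add, Nat.add_sub_cancel' (Nat.lt_succ_iff.1 j.2)]
    simp only [mon, Matrix.smul_apply, smul_eq_mul, e, C_mul, C_pow]
    rw [mul_mul_mul_comm, ← mul_pow, ← mul_pow]
    congr 2 <;> ring
  rw [Matrix.smul_apply, sy_apply, sy_apply, this, coeff_C_mul, smul_eq_mul]

theorem syd_map {R S : Type} [CommRing R] [CommRing S] (f : R →+* S) (m : ℕ) (g : GL (Fin 2) R) :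
    syd m (Matrix.GeneralLinearGroup.map f g) = (syd m g).map f := by
  have d : (Matrix.GeneralLinearGroup.map f g).det = Units.map f.toMonoidHom g.det :=
    Units.ext (f.map_det _).symm
  show (((Matrix.GeneralLinearGroup.map f g).det⁻¹ ^ m : Sˣ) : S) • sy (2 * m) (g.val.map f) =
    (((g.det⁻¹ ^ m : Rˣ) : R) • sy (2 * m) g.val).map f
  rw [d, sy_map, ← map_inv, ← map_pow]
  ext i j
  exact (map_mul f _ _).symm

/-- matrices which are bounded modulo the centre -/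
theorem rc_syd {α : Type} (m : ℕ) {g : α → GL (Fin 2) ℂ}
    (h : ∃ C, ∀ x i j, ‖(g x).1 i j‖ ^ 2 ≤ C * ‖(g x).1.det‖) : Rc fun x => syd m (g x)⁻¹ := by
  obtain ⟨C, h⟩ := h
  choose z hz using fun x => IsAlgClosed.exists_pow_nat_eq (g x).1.det two_pos
  have d0 : ∀ x, (g x).1.det ≠ 0 := fun x => (g x).det.ne_zero
  have z0 : ∀ x, z x ≠ 0 := fun x e => d0 x (by rw [← hz, e]; simp)
  have r : Rc fun x => (z x)⁻¹ • (g x).1 := Rc.pi fun i => Rc.pi fun j => rc_iff.2 ⟨√C, fun x => by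
    refine Real.le_sqrt_of_sq_le ?_
    rw [Matrix.smul_apply, smul_eq_mul, norm_mul, mul_pow, norm_inv, inv_pow, ← norm_pow, hz,
      inv_mul_le_iff₀ (norm_pos_iff.2 (d0 x)), mul_comm]
    exact h x i j⟩
  refine Eq.mp (congrArg Rc (funext fun x => ?_))
    (r.map ((sy_cont (2 * m)).comp continuous_id.matrix_adjugate))
  show sy (2 * m) (Matrix.adjugate ((z x)⁻¹ • (g x).1)) =
    ((((g x)⁻¹).det⁻¹ ^ m : ℂˣ) : ℂ) • sy (2 * m) ((g x)⁻¹).1
  rw [Matrix.adjugate_smul, map_inv, inv_inv, Units.val_pow_eq_pow_val,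
    Matrix.GeneralLinearGroup.val_det_apply, ← hz, ← pow_mul, ← sy_smul, Matrix.coe_units_inv,
    Matrix.inv_def, smul_smul, ← hz, Ring.inverse_eq_inv']
  congr 2
  have := z0 x
  simp only [Fintype.card_fin, Nat.add_one_sub_one, pow_one]
  field_simp

theorem kr_cont {ι n : Type} [Fintype ι] [DecidableEq ι] [Fintype n] [DecidableEq n] :
    Continuous fun A : ι → Matrix n n ℂ => kr A :=
  continuous_matrix fun a b => continuous_finset_prod _ fun i _ => by fun_prop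

/-- the action on one factor -/
theorem kr_slice {ι n : Type} [Fintype ι] [DecidableEq ι] [Fintype n] [DecidableEq n] (t : ι)
    (A : Matrix n n ℂ) (v : (ι → n) → ℂ) (a : ι → n) (j : n) :
    (kr fun i => if i = t then A else 1).mulVec v (Function.update a t j) =
      A.mulVec (fun k => v (Function.update a t k)) j := by
  refine (Fintype.sum_of_injective (Function.update a t) (Function.update_injective a t) _ _
    (fun b hb => ?_) fun k => ?_).symm
  · obtain ⟨i, h1, h2⟩ : ∃ i, i ≠ t ∧ a i ≠ b i := by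
      by_contra c
      push Not at c
      exact hb ⟨b t, funext fun i => by
        by_cases e : i = t
        · rw [e, Function.update_self]
        · rw [Function.update_of_ne e, c i e]⟩
    refine mul_eq_zero_of_left (Finset.prod_eq_zero (Finset.mem_univ i) ?_) _
    simp only [if_neg h1, Function.update_of_ne h1, Matrix.one_apply_ne h2]
  · refine congrArg (· * _) (Eq.symm ?_)
    refine (Finset.prod_eq_single t (fun i _ e => ?_) fun c => absurd (Finset.mem_univ _) c).trans ?_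
    · simp only [if_neg e, Function.update_of_ne e, Matrix.one_apply_eq]
    · simp only [if_true, Function.update_self]

/-- the complex matrix -/
def cx : GP →* GL (Fin 2) ℂ := (Matrix.GeneralLinearGroup.map Complex.ofRealHom).comp GP.subtype

/-- no bounded orbits -/
theorem kill {m : ℕ} (hm : m ≠ 0) {u : Fin (2 * m + 1) → ℂ}
    (h : Rc fun g : GP => (syd m (cx g)).mulVec u) : u = 0 := by
  obtain ⟨B, hB⟩ := rc_iff.1 (h.map (continuous_apply (Fin.last _)))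
  let q : ℂ[X] := ∑ k : Fin (2 * m + 1), monomial (2 * m - k) (((2 * m).choose k : ℂ) * u k)
  have e : ∀ t b : ℝ, 0 < t → ‖(t : ℂ) ^ (2 * m) * q.eval (b : ℂ)‖ ≤ B := fun t b ht => by
    have d : (!![t, t * b; 0, t⁻¹] : Matrix (Fin 2) (Fin 2) ℝ).det = 1 := by
      rw [Matrix.det_fin_two_of, mul_inv_cancel₀ ht.ne']; simp
    let g : GP := ⟨Matrix.GeneralLinearGroup.mkOfDetNeZero _ (d ▸ one_ne_zero), by
      show (0 : ℝ) < Matrix.det !![t, t * b; 0, t⁻¹]
      exact d ▸ one_pos⟩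
    refine Eq.trans_le (congrArg _ ?_) (hB g)
    have d' : (cx g).det = 1 := Units.ext (by
      show ((g.1.1).map Complex.ofRealHom).det = 1
      rw [← RingHom.mapMatrix_apply, ← RingHom.map_det]
      exact (congrArg _ d).trans (map_one _))
    show _ = ((((cx g).det⁻¹ ^ m : ℂˣ) : ℂ) • sy (2 * m) (cx g).1).mulVec u _
    rw [d', inv_one, one_pow, Units.val_one, one_smul, eval_finset_sum, Finset.mul_sum]
    refine Finset.sum_congr rfl fun k _ => ?_
    have : mon (2 * m) (cx g).1 (Fin.last (2 * m)) = C ((t : ℂ) ^ (2 * m)) * (X + C (b : ℂ)) ^ (2 * m) := by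
      show (C ((t : ℝ) : ℂ) * X + C ((t * b : ℝ) : ℂ)) ^ (2 * m) * _ ^ (2 * m - 2 * m) = _
      rw [Nat.sub_self, pow_zero, mul_one, Complex.ofReal_mul, C_mul, ← mul_add, mul_pow, C_pow]
    simp only [sy_apply, this, coeff_C_mul, coeff_X_add_C_pow, eval_monomial]
    ring
  have z : ∀ b : ℝ, q.eval (b : ℂ) = 0 := fun b => by
    by_contra c
    have p0 := norm_pos_iff.2 c
    obtain ⟨t, h1, h2⟩ := ((Filter.eventually_gt_atTop 0).and (((Filter.tendsto_pow_atTop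
      (α := ℝ) (mul_ne_zero two_ne_zero hm)).atTop_mul_const p0).eventually_gt_atTop B)).exists
    have := e t b h1
    rw [norm_mul, norm_pow, Complex.norm_real, Real.norm_of_nonneg h1.le] at this
    exact absurd h2 this.not_gt
  have q0 : q = 0 := q.eq_zero_of_infinite_isRoot
    ((Set.infinite_range_of_injective Complex.ofReal_injective).mono (by
      rintro _ ⟨b, rfl⟩
      exact z b))
  funext k
  have := congrArg (coeff · (2 * m - k)) q0
  simp only [q, finset_sum_coeff, coeff_monomial, coeff_zero] at this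
  rw [Finset.sum_eq_single k (fun k' _ ne => if_neg fun c => ne (Fin.ext (by omega)))
    (fun c => absurd (Finset.mem_univ _) c), if_pos rfl] at this
  exact (mul_eq_zero.1 this).resolve_left
    (Nat.cast_ne_zero.2 (Nat.choose_pos (Nat.lt_succ_iff.1 k.2)).ne')

/-- the matrices which move `I` into a compact set -/
theorem bd_cpt {K : Set ℍ} (hK : IsCompact K) : ∃ C, ∀ (c : {c : GP // c • I ∈ K}) i j,
    ‖(cx c).1 i j‖ ^ 2 ≤ C * ‖(cx c).1.det‖ := by
  obtain ⟨A, hA⟩ := (hK.image (f := fun τ : ℍ => (1 + Complex.normSq τ) / τ.im)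
    (((continuous_const.add (Complex.continuous_normSq.comp continuous_coe)).div continuous_im
      fun τ => τ.im_pos.ne'))).isBounded.bddAbove
  refine ⟨A, fun c i j => ?_⟩
  have h1 : (1 + Complex.normSq (c.1.1 • I : ℍ)) / (c.1.1 • I : ℍ).im ≤ A := hA ⟨_, c.2, rfl⟩
  have dp : 0 < c.1.1.det.val := c.1.2
  have n0 := normSq_denom_pos c.1.1 (z := (I : ℍ)) (by simp)
  have e : (cx c).1.det = (c.1.1.det.val : ℝ) := by
    show ((c.1.1.1).map Complex.ofRealHom).det = _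
    rw [← RingHom.mapMatrix_apply, ← RingHom.map_det]
    rfl
  rw [im_smul_eq_div_normSq, coe_smul_of_det_pos dp, map_div₀, abs_of_pos dp, I_im, mul_one,
    div_div_eq_mul_div, add_mul, div_mul_cancel₀ _ n0.ne', one_mul, div_le_iff₀ dp] at h1
  rw [e, Complex.norm_real, Real.norm_of_nonneg dp.le]
  refine le_trans ?_ h1
  show ‖((c.1.1.1 i j : ℝ) : ℂ)‖ ^ 2 ≤ _
  rw [Complex.norm_real, Real.norm_eq_abs, sq_abs]
  simp only [num, denom, Complex.normSq_apply, coe_I, Complex.add_re, Complex.add_im,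
    Complex.mul_re, Complex.mul_im, Complex.ofReal_re, Complex.ofReal_im, Complex.I_re,
    Complex.I_im]
  fin_cases i <;> fin_cases j <;> simp only [Fin.zero_eta, Fin.mk_one, Fin.isValue] <;>
    nlinarith [mul_self_nonneg (c.1.1.1 0 0), mul_self_nonneg (c.1.1.1 0 1),
      mul_self_nonneg (c.1.1.1 1 0), mul_self_nonneg (c.1.1.1 1 1)]

/-- bounded on a cocompact group: zero -/
theorem cc_kill {G0 G : Type} [Group G0] [Group G] {T : Tw G0 G} {Γ : Subgroup G0} (hΓ : T.Fu Γ)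
    {m : ℕ} (hm : m ≠ 0) {u : Fin (2 * m + 1) → ℂ}
    (h : Rc fun γ : Γ => (syd m (cx (T.r γ))).mulVec u) : u = 0 := by
  obtain ⟨K, hK, hc⟩ := hΓ.cc
  choose γ h1 h2 using fun g : GP => hc (g⁻¹ • I)
  refine kill hm (Eq.mp (congrArg Rc (funext fun g => ?_)) (((rc_syd m (bd_cpt hK)).comp
    fun g : GP => ⟨T.r (γ g) * g⁻¹, by rw [mul_smul]; exact h2 g⟩).mv (h.comp fun g => ⟨_, h1 g⟩)))
  rw [Matrix.mulVec_mulVec, ← map_mul, ← map_inv, ← map_mul]
  congr 3
  group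

/-! ### splittings -/

variable {F : Type} [Field F] [NumberField F] (Y : QD F) {t : F →+* ℂ} {ψ : Y.D →+* M2}

theorem dec (h : ∀ c, ψ (algebraMap F _ c) = algebraMap ℂ _ (t c)) (x : Y.D) :
    ψ x = t x.re • 1 + t x.imI • ψ ⟨0, 1, 0, 0⟩ + t x.imJ • ψ ⟨0, 0, 1, 0⟩ +
      t x.imK • (ψ ⟨0, 1, 0, 0⟩ * ψ ⟨0, 0, 1, 0⟩) := by
  have e : x = algebraMap F _ x.re + algebraMap F _ x.imI * ⟨0, 1, 0, 0⟩ +
      algebraMap F _ x.imJ * ⟨0, 0, 1, 0⟩ + algebraMap F _ x.imK * (⟨0, 1, 0, 0⟩ * ⟨0, 0, 1, 0⟩) := by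
    ext <;> simp
  conv_lhs => rw [e]
  simp only [map_add, map_mul, h, Algebra.smul_def, mul_one]

/-- the normal form of a splitting -/
theorem nf {l μ : ℂ} (hl : l ^ 2 = t Y.a) (hμ : -μ ^ 2 = t Y.b)
    (h : ∀ c, ψ (algebraMap F _ c) = algebraMap ℂ _ (t c)) : ∃ P : GL (Fin 2) ℂ, ∀ x,
      ψ x = P.1 * !![t x.re + t x.imI * l, (t x.imJ + t x.imK * l) * μ;
        (t x.imK * l - t x.imJ) * μ, t x.re - t x.imI * l] * (P⁻¹).1 := by
  have a0 : t Y.a ≠ 0 := (map_ne_zero t).2 (by simpa using Y.a0)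
  have b0 : t Y.b ≠ 0 := (map_ne_zero t).2 (by simpa using Y.b0)
  obtain ⟨P, Q, e, h1, h2⟩ := Ar.std (A := ψ ⟨0, 1, 0, 0⟩) (B := ψ ⟨0, 0, 1, 0⟩) (l := l) (μ := μ)
    (fun k => a0 (by rw [← hl, k]; simp)) (fun k => b0 (by rw [← hμ, k]; simp))
    (by rw [hl, ← Algebra.algebraMap_eq_smul_one, ← h, ← map_mul]; congr 1; ext <;> simp)
    (by rw [hμ, ← Algebra.algebraMap_eq_smul_one, ← h, ← map_mul]; congr 1; ext <;> simp)
    (by rw [← map_mul, ← map_mul, ← map_neg]; congr 1; ext <;> simp)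
  have e' : Q * P = 1 := mul_eq_one_comm.1 e
  refine ⟨⟨P, Q, e, e'⟩, fun x => ?_⟩
  show _ = P * _ * Q
  rw [dec Y h, h1, h2, mul_assoc _ Q, ← mul_assoc Q, ← mul_assoc Q, e', one_mul, ← e,
    show (!![t x.re + t x.imI * l, (t x.imJ + t x.imK * l) * μ;
      (t x.imK * l - t x.imJ) * μ, t x.re - t x.imI * l] : M2) = t x.re • 1 +
      t x.imI • !![l, 0; 0, -l] + t x.imJ • !![0, μ; -μ, 0] +
      t x.imK • (!![l, 0; 0, -l] * !![0, μ; -μ, 0]) by
      ext i j; fin_cases i <;> fin_cases j <;> simp <;> ring]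
  simp only [mul_add, add_mul, mul_smul_comm, smul_mul_assoc, mul_one, mul_assoc]

theorem ex_lm (t : F →+* ℂ) : ∃ l μ : ℂ, l ^ 2 = t Y.a ∧ -μ ^ 2 = t Y.b := by
  obtain ⟨l, hl⟩ := IsAlgClosed.exists_pow_nat_eq (t Y.a) two_pos
  obtain ⟨μ, hμ⟩ := IsAlgClosed.exists_pow_nat_eq (-t Y.b) two_pos
  exact ⟨l, μ, hl, by rw [hμ, neg_neg]⟩

/-- **Skolem and Noether** -/
theorem skn {ψ' : Y.D →+* M2} (h : ∀ c, ψ (algebraMap F _ c) = algebraMap ℂ _ (t c))
    (h' : ∀ c, ψ' (algebraMap F _ c) = algebraMap ℂ _ (t c)) :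
    ∃ P : GL (Fin 2) ℂ, ∀ x, ψ' x = (P⁻¹).1 * ψ x * P.1 := by
  obtain ⟨l, μ, hl, hμ⟩ := ex_lm Y t
  obtain ⟨P, hP⟩ := nf Y hl hμ h
  obtain ⟨P', hP'⟩ := nf Y hl hμ h'
  refine ⟨P * P'⁻¹, fun x => ?_⟩
  rw [hP, hP', mul_inv_rev, inv_inv, Units.val_mul, Units.val_mul]
  simp only [mul_assoc, Units.inv_mul_cancel_left]

theorem det_eq (h : ∀ c, ψ (algebraMap F _ c) = algebraMap ℂ _ (t c)) (x : Y.D) : (ψ x).det =
    t (x.re ^ 2 - Y.a * x.imI ^ 2 - Y.b * x.imJ ^ 2 + Y.a * Y.b * x.imK ^ 2) := by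
  obtain ⟨l, μ, hl, hμ⟩ := ex_lm Y t
  obtain ⟨P, hP⟩ := nf Y hl hμ h
  rw [hP, Matrix.det_units_conj, Matrix.det_fin_two_of]
  simp only [map_add, map_sub, map_mul, map_pow, ← hl, ← hμ]
  ring

theorem sq_le {c n x : ℝ} (hc : 0 < c) (h : c * x ^ 2 ≤ n) : |x| ≤ √c⁻¹ * √n := by
  rw [← Real.sqrt_mul (inv_pos.2 hc).le]
  exact Real.abs_le_sqrt ((le_inv_mul_iff₀ hc).2 h)

/-- definite places -/
theorem bdd {r : F →+* ℝ} (ha : r Y.a < 0) (hb : r Y.b < 0)
    (h : ∀ c, ψ (algebraMap F _ c) = algebraMap ℂ _ (r c)) :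
    ∃ C, ∀ x i j, ‖ψ x i j‖ ^ 2 ≤ C * ‖(ψ x).det‖ := by
  have h' : ∀ c, ψ (algebraMap F _ c) = algebraMap ℂ _ (Complex.ofRealHom.comp r c) := h
  let B : Fin 2 → Fin 2 → ℝ := fun i j => √(1 : ℝ)⁻¹ * ‖(1 : M2) i j‖ +
    √(-r Y.a)⁻¹ * ‖ψ ⟨0, 1, 0, 0⟩ i j‖ + √(-r Y.b)⁻¹ * ‖ψ ⟨0, 0, 1, 0⟩ i j‖ +
    √(r Y.a * r Y.b)⁻¹ * ‖(ψ ⟨0, 1, 0, 0⟩ * ψ ⟨0, 0, 1, 0⟩) i j‖
  obtain ⟨C, hC⟩ := (Set.finite_range fun q : Fin 2 × Fin 2 => B q.1 q.2 ^ 2).bddAbove
  refine ⟨C, fun x i j => ?_⟩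
  have p1 := mul_nonneg (neg_pos.2 ha).le (sq_nonneg (r x.imI))
  have p2 := mul_nonneg (neg_pos.2 hb).le (sq_nonneg (r x.imJ))
  have p3 := mul_nonneg (mul_pos_of_neg_of_neg ha hb).le (sq_nonneg (r x.imK))
  have p0 := sq_nonneg (r x.re)
  obtain ⟨n, hn⟩ : ∃ n, n = r x.re ^ 2 - r Y.a * r x.imI ^ 2 - r Y.b * r x.imJ ^ 2 +
    r Y.a * r Y.b * r x.imK ^ 2 := ⟨_, rfl⟩
  have n0 : 0 ≤ n := by linarith
  have e : ‖(ψ x).det‖ = n := by
    rw [det_eq Y h', RingHom.comp_apply]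
    simp only [map_add r, map_sub r, map_mul r, map_pow r, ← hn]
    exact (Complex.norm_real _).trans (Real.norm_of_nonneg n0)
  have q0 := sq_le (x := r x.re) (n := n) one_pos (by linarith)
  have q1 := sq_le (x := r x.imI) (n := n) (neg_pos.2 ha) (by linarith)
  have q2 := sq_le (x := r x.imJ) (n := n) (neg_pos.2 hb) (by linarith)
  have q3 := sq_le (x := r x.imK) (n := n) (mul_pos_of_neg_of_neg ha hb) (by linarith)
  have k : ∀ (c : F) (z : ℂ) (u : ℝ), |r c| ≤ u * √n →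
      ‖Complex.ofRealHom.comp r c * z‖ ≤ u * ‖z‖ * √n := fun c z u hu => by
    rw [norm_mul, mul_right_comm]
    exact mul_le_mul_of_nonneg_right ((Complex.norm_real _).trans_le hu) (norm_nonneg _)
  have le : ‖ψ x i j‖ ≤ B i j * √n := by
    rw [dec Y h' x]
    simp only [B, Matrix.add_apply, Matrix.smul_apply, smul_eq_mul, add_mul]
    exact norm_add_le_of_le (norm_add_le_of_le (norm_add_le_of_le (k _ _ _ q0) (k _ _ _ q1))
      (k _ _ _ q2)) (k _ _ _ q3)
  rw [e]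
  refine (pow_le_pow_left₀ (norm_nonneg _) le 2).trans ?_
  rw [mul_pow, Real.sq_sqrt n0]
  exact mul_le_mul_of_nonneg_right (hC ⟨(i, j), rfl⟩) n0

/-- the real embedding -/
def re (t : F →+* ℂ) : F →+* ℝ where
  toFun c := (t c).re
  map_one' := by simp
  map_zero' := by simp
  map_add' a b := by simp
  map_mul' a b := by simp [Y.real t]

theorem re_eq (t : F →+* ℂ) (c : F) : (re Y t c : ℂ) = t c :=
  Complex.ext rfl (by rw [Y.real t c]; rfl)

include Y in
theorem ex_ne (τ : F →+* Qb) : ∃ τ' : F →+* Qb, τ' ≠ τ := by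
  obtain ⟨r, hr⟩ := Y.two
  obtain ⟨φ, h⟩ := H565.exists_ext τ Y.tc
  obtain ⟨φ', h'⟩ := H565.exists_ext τ (Complex.ofRealHom.comp r)
  obtain ⟨σ, hσ⟩ := H565.exists_aut φ φ'
  refine ⟨(σ : Qb →+* Qb).comp τ, fun e => hr (RingHom.ext fun c => Complex.ofReal_injective ?_)⟩
  have : σ (τ c) = τ c := DFunLike.congr_fun e c
  exact (h' c).symm.trans ((hσ _).symm.trans ((congrArg φ this).trans (h c)))

theorem kr_map {R S ι n : Type} [CommRing R] [CommRing S] [Fintype ι] [DecidableEq ι] [Fintype n]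
    [DecidableEq n] (f : R →+* S) (A : ι → Matrix n n R) :
    (kr A).map f = kr fun i => (A i).map f := by
  ext a b
  exact map_prod f _ _

/-- fixed vectors do not depend on the embedding -/
theorem desc {α n : Type} [Fintype n] (A : α → Matrix n n Qb) (φ φ' : Qb →+* ℂ) {v : n → ℂ}
    (v0 : v ≠ 0) (h : ∀ x, ((A x).map φ).mulVec v = v) :
    ∃ v' : n → ℂ, v' ≠ 0 ∧ ∀ x, ((A x).map φ').mulVec v' = v' := by
  letI := φ.toAlgebra
  obtain ⟨a, ha⟩ := Function.ne_iff.1 v0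
  obtain ⟨f, hf⟩ := Module.Projective.exists_dual_ne_zero Qb ha
  refine ⟨fun i => φ' (f (v i)), fun e => hf ((map_eq_zero φ').1 (congrFun e a)),
    fun x => funext fun i => ?_⟩
  conv_rhs => rw [← h x]
  simp only [Matrix.mulVec, dotProduct, Matrix.map_apply, map_sum]
  refine Finset.sum_congr rfl fun k _ => ?_
  rw [← map_mul, ← smul_eq_mul, ← map_smul]
  rfl

end Fx

open Fx

open Classical in
/-- **no invariants** -/
theorem fix0 {F : Type} [Field F] [NumberField F] (Y : QD F) (m : ℕ) (hm : m ≠ 0) (s : Y.Sp Qb)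
    (hs : Y.IsSp s) (φ : Qb →+* ℂ) (τ₁ : F →+* Qb) {Γ : Subgroup Y.G0} (hΓ : Y.tw.Fu Γ)
    (v : Vw ℂ (F →+* Qb) m) (h : ∀ γ ∈ Γ, (kr fun τ => if τ = τ₁ then 1 else
      syd m (Units.map (mp φ s τ).toMonoidHom γ.1)).mulVec v = v) : v = 0 := by
  by_contra v0
  obtain ⟨τ₂, ne⟩ := ex_ne Y τ₁
  obtain ⟨φ', hφ⟩ := H565.exists_ext τ₂ Y.tc
  have mk : ∀ (ψ : Qb →+* ℂ) (γ : Γ), (kr fun τ => if τ = τ₁ then 1 else
      syd m (Units.map (s τ).toMonoidHom γ.1.1)).map ψ = kr fun τ => if τ = τ₁ then 1 else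
        syd m (Units.map (mp ψ s τ).toMonoidHom γ.1.1) := fun ψ γ => by
    rw [kr_map]
    congr 1
    funext τ
    split_ifs
    · exact Matrix.map_one _ (map_zero ψ) (map_one ψ)
    · exact (syd_map ψ m _).symm
  obtain ⟨w, w0, hw⟩ := desc _ φ φ' v0 fun γ : Γ => by rw [mk]; exact h γ γ.2
  simp only [mk] at hw
  let σ : (F →+* Qb) → Γ → GL (Fin 2) ℂ := fun τ γ => Units.map (mp φ' s τ).toMonoidHom γ.1.1
  have ab : ∀ τ c, mp φ' s τ (algebraMap F _ c) = algebraMap ℂ _ (φ'.comp τ c) := fun τ c => by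
    show (s τ _).map φ' = _
    rw [hs]
    ext i j
    simp [Matrix.algebraMap_matrix_apply, apply_ite φ']
  have r1 : Rc fun γ : Γ => kr fun τ => if τ = τ₁ ∨ τ = τ₂ then 1 else syd m (σ τ γ)⁻¹ := by
    refine (Rc.pi fun τ => ?_).map kr_cont
    split_ifs with c
    · exact rc_const _
    obtain ⟨a, b⟩ := Y.defi (re Y (φ'.comp τ)) fun e => c (Or.inr (RingHom.ext fun x =>
      φ'.injective ((re_eq Y (φ'.comp τ) x).symm.trans (by rw [e, hφ]; rfl))))
    obtain ⟨C, hC⟩ := bdd Y (ψ := mp φ' s τ) a b fun c => by rw [ab, re_eq]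
    exact rc_syd m ⟨C, fun γ => hC _⟩
  have r2 : Rc fun γ : Γ => (kr fun τ => if τ = τ₂ then syd m (σ τ₂ γ) else 1).mulVec w := by
    refine Eq.mp (congrArg Rc (funext fun γ => ?_)) (r1.mv (rc_const w))
    conv_lhs => rw [← hw γ]
    rw [Matrix.mulVec_mulVec, ← map_mul]
    congr 2
    funext τ
    by_cases c : τ = τ₂
    · subst c
      simp [ne, σ]
    · by_cases c' : τ = τ₁
      · rw [Pi.mul_apply, if_neg c, if_pos c', if_pos (Or.inl c'), one_mul]
      · rw [Pi.mul_apply, if_neg c, if_neg c', if_neg (not_or.2 ⟨c', c⟩), ← map_mul, inv_mul_cancel,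
          map_one]
  obtain ⟨P, hP⟩ := skn Y (t := Y.tc) (ψ := mp φ' s τ₂)
    (ψ' := Complex.ofRealHom.mapMatrix.comp Y.s) (fun c => by rw [ab]; exact congrArg _ (hφ c))
    fun c => by
      rw [RingHom.comp_apply, Y.hs]
      ext i j
      simp [Matrix.algebraMap_matrix_apply, QD.tc, apply_ite ((↑) : ℝ → ℂ)]
  refine w0 (funext fun a => ?_)
  have r3 : Rc fun γ : Γ => (syd m (σ τ₂ γ)).mulVec fun k => w (Function.update a τ₂ k) :=
    Rc.pi fun j => Eq.mp (congrArg Rc (funext fun γ => kr_slice _ _ _ _ _))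
      (r2.map (continuous_apply (Function.update a τ₂ j)))
  have := cc_kill hΓ hm (u := (syd m P⁻¹).mulVec fun k => w (Function.update a τ₂ k))
    (Eq.mp (congrArg Rc (funext fun γ => by
      rw [Matrix.mulVec_mulVec, Matrix.mulVec_mulVec, ← map_mul, ← map_mul,
        show cx (Y.tw.r γ) = P⁻¹ * σ τ₂ γ * P from Units.ext (hP _), mul_inv_cancel_right]))
      ((rc_const (syd m P⁻¹)).mv r3))
  have e := congrArg (syd m P).mulVec this
  rw [Matrix.mulVec_mulVec, ← map_mul, mul_inv_cancel, map_one, Matrix.one_mulVec,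
    Matrix.mulVec_zero] at e
  have := congrFun e (a τ₂)
  rwa [Function.update_eq_self] at this

theorem fix0C : FIX0 := fun _ _ _ Y m hm s hs φ τ₁ _ hΓ v h => fix0 Y m hm s hs φ τ₁ hΓ v h

/-- **ARC** without hypotheses -/
theorem arcC : ARC := arc fix0C

end Vale.Agent.P022K.RM
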