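import Vale.Agent.P022K.RM.St
import Vale.Agent.P022K.RM.Ces

/-!
# P022K, block RM: continuous primitives, exact eigenfunctions
-/

set_option autoImplicit false
set_option linter.unusedSectionVars false

open UpperHalfPlane Filter Topology Metric Function
open scoped MatrixGroups

noncomputable section

namespace Vale.Agent.P022K.RM

open Sh

variable {G0 G : Type} [Group G0] [Group G] {T : Tw G0 G} {U : Subgroup G}

theorem mem_Z0 {γ : G0} : γ ∈ T.Z0 ↔ ∀ τ : ℍ, T.r γ • τ = τ := by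
  simp [Tw.Z0, MonoidHom.mem_ker, Equiv.ext_iff]

/-- reduction to a compact set -/
theorem red (ok : T.Ok) (hU : U ∈ T.Lev) : ∃ (S : Finset G) (R : ℝ), ∀ (τ : ℍ) x, ∃ γ, ∃ s ∈ S,
    ∃ u ∈ U, x = T.j γ * s * u ∧ dist ((T.r γ)⁻¹ • τ) I < R := by
  obtain ⟨S, hS⟩ := ok.fin U hU
  choose K hK using fun s => (ok.fu U hU s).cc
  obtain ⟨R, hR⟩ := (S.finite_toSet.isCompact_biUnion fun s _ => (hK s).1).isBounded.subset_ball I
  refine ⟨S, R, fun τ x => ?_⟩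
  obtain ⟨s, hs, γ, u, hu, rfl⟩ := hS x
  obtain ⟨δ, hδ, m⟩ := (hK s).2 ((T.r γ)⁻¹ • τ)
  refine ⟨γ * δ⁻¹, s, hs, s⁻¹ * T.j δ * s * u, mul_mem (T.mem_Gam.1 hδ) hu, by simp; group, ?_⟩
  rw [map_mul, map_inv, mul_inv_rev, inv_inv, mul_smul]
  exact hR (Set.mem_biUnion hs m)

/-- **a continuous primitive** -/
theorem prim (ok : T.Ok) (hU : U ∈ T.Lev) {V : Type} [NormedAddCommGroup V] [NormedSpace ℂ V]
    {ρ : Representation ℂ G0 V} {z : G0 → G → V} (hz : z ∈ T.Z1 ρ U) :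
    ∃ f : ℍ → G → V, (∀ x, Continuous fun τ => f τ x) ∧ (∀ τ, Inv U (f τ)) ∧
      ∀ γ τ x, ρ γ (f ((T.r γ)⁻¹ • τ) ((T.j γ)⁻¹ * x)) = f τ x + z γ x := by
  classical
  obtain ⟨S, R, hS⟩ := red ok hU
  let w : G0 → ℍ → G → ℝ := fun γ τ x => if ∃ s ∈ S, s⁻¹ * ((T.j γ)⁻¹ * x) ∈ U then
    max 0 (R - dist ((T.r γ)⁻¹ • τ) I) else 0
  have w0 : ∀ γ τ x, 0 ≤ w γ τ x := fun γ τ x => by
    simp only [w]
    split_ifs
    exacts [le_max_left _ _, le_rfl]
  have w1 : ∀ δ γ τ x, w (δ * γ) τ x = w γ ((T.r δ)⁻¹ • τ) ((T.j δ)⁻¹ * x) := fun δ γ τ x => by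
    simp only [w, map_mul, mul_inv_rev, mul_smul, mul_assoc]
  have w2 : ∀ γ, ∀ ζ ∈ T.Z0, ∀ τ x, w (γ * ζ) τ x = w γ τ x := fun γ ζ hζ τ x => by
    have c := inv_mem ((ok.z0 ζ).1 hζ)
    have e : ∀ s : G, s⁻¹ * ((T.j (γ * ζ))⁻¹ * x) ∈ U ↔ s⁻¹ * ((T.j γ)⁻¹ * x) ∈ U := fun s => by
      rw [map_mul, mul_inv_rev, mul_assoc, ← Subgroup.mem_center_iff.1 (ok.zc c), ← mul_assoc,
        mul_mem_cancel_right ((sInf_le hU : T.Z ≤ U) c)]
    simp only [w, e]
    rw [map_mul, mul_inv_rev, mul_smul, ← map_inv _ ζ, mem_Z0.1 (inv_mem hζ)]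
  have w3 : ∀ γ τ x, ∀ u ∈ U, w γ τ (x * u) = w γ τ x := fun γ τ x u hu => by
    simp only [w, ← mul_assoc, mul_mem_cancel_right hu]
  have w4 : ∀ γ x, Continuous fun τ => w γ τ x := fun γ x => by
    simp only [w]
    split_ifs
    exacts [continuous_const.max (continuous_const.sub
      ((continuous_const_smul _).dist continuous_const)), continuous_const]
  have z2 : ∀ γ δ x, z (γ * δ) x = z γ x + ρ γ (z δ ((T.j γ)⁻¹ * x)) := fun γ δ x => by
    rw [hz.2.1]; rfl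
  have ou : ∀ γ : G0, ∃ ζ ∈ T.Z0, (γ : G0 ⧸ T.Z0).out = γ * ζ := fun γ =>
    ⟨_, out_mk_mem T.Z0 γ, (mul_inv_cancel_left _ _).symm⟩
  have sm : ∀ (δ : G0) (q : G0 ⧸ T.Z0), ∃ ζ ∈ T.Z0, (δ • q).out = δ * q.out * ζ := fun δ q => by
    rw [show δ • q = ((δ * q.out : G0) : G0 ⧸ T.Z0) by
      rw [← smul_eq_mul, ← MulAction.Quotient.smul_mk, QuotientGroup.out_eq']]
    exact ou _
  have w5 : ∀ x, LocallyFinite fun q : G0 ⧸ T.Z0 => support fun τ => w q.out τ x := fun x τ₀ => by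
    refine ⟨closedBall τ₀ 1, closedBall_mem_nhds _ one_pos, (S.finite_toSet.biUnion
      (t := fun s => {q : G0 ⧸ T.Z0 | s⁻¹ * ((T.j q.out)⁻¹ * x) ∈ U ∧ ∃ τ ∈ closedBall τ₀ 1,
        dist ((T.r q.out)⁻¹ • τ) I ≤ R}) fun s _ => ?_).subset ?_⟩
    · by_contra nf
      obtain ⟨q₀, a, -⟩ := Set.Infinite.nonempty nf
      refine nf ?_
      obtain ⟨S₁, h₁⟩ := (ok.fu U hU s).pd _ (((isCompact_closedBall τ₀ 1).image
        (continuous_const_smul (T.r q₀.out)⁻¹)).union (isCompact_closedBall I R))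
      refine (S₁.finite_toSet.image fun σ => ((q₀.out * σ : G0) : G0 ⧸ T.Z0)).subset ?_
      rintro q ⟨b, τ, hτ, d⟩
      obtain ⟨σ, hσ, e⟩ := h₁ (q₀.out⁻¹ * q.out) (T.mem_Gam.2 (by
        convert mul_mem a (inv_mem b) using 1
        simp only [map_mul, map_inv]
        group)) ⟨_, Or.inr d, Or.inl ⟨τ, hτ, by simp [mul_smul]⟩⟩
      exact ⟨σ, hσ, (QuotientGroup.eq.2 (by rwa [mul_inv_rev, mul_assoc])).trans q.out_eq'⟩
    · rintro q ⟨τ, a, b⟩
      simp only [w, mem_support] at a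
      split_ifs at a with h
      · obtain ⟨s, hs, h⟩ := h
        exact Set.mem_biUnion hs ⟨h, τ, b, by
          by_contra n
          exact a (max_eq_left (by linarith))⟩
      · exact (a rfl).elim
  have fs : ∀ τ x, HasFiniteSupport fun q : G0 ⧸ T.Z0 => w q.out τ x := fun τ x =>
    (w5 x).point_finite τ
  have fc : ∀ τ x, HasFiniteSupport fun q : G0 ⧸ T.Z0 => (w q.out τ x : ℂ) := fun τ x =>
    (fs τ x).subset fun q h => by simpa using h
  have fv : ∀ τ x (v : G0 ⧸ T.Z0 → V), HasFiniteSupport fun q => (w q.out τ x : ℂ) • v q :=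
    fun τ x v => (fc τ x).subset fun q h => left_ne_zero_of_smul h
  let Φ : ℍ → G → ℂ := fun τ x => ∑ᶠ q : G0 ⧸ T.Z0, (w q.out τ x : ℂ)
  let N : ℍ → G → V := fun τ x => ∑ᶠ q : G0 ⧸ T.Z0, (w q.out τ x : ℂ) • z q.out x
  have Φ0 : ∀ τ x, Φ τ x ≠ 0 := fun τ x => by
    have e : Φ τ x = ((∑ᶠ q : G0 ⧸ T.Z0, w q.out τ x : ℝ) : ℂ) :=
      (Complex.ofRealHom.toAddMonoidHom.map_finsum (fs τ x)).symm
    rw [e, Complex.ofReal_ne_zero]
    obtain ⟨γ, s, hs, u, hu, rfl, d⟩ := hS τ x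
    obtain ⟨ζ, hζ, o⟩ := ou γ
    refine (finsum_pos (fun q : G0 ⧸ T.Z0 => w0 q.out _ _) ⟨γ, ?_⟩ (fs _ _)).ne'
    rw [o, w2 _ _ hζ]
    simp only [w]
    rw [if_pos ⟨s, hs, by simpa [mul_assoc] using hu⟩]
    exact lt_max_of_lt_right (by linarith)
  have wq : ∀ δ (q : G0 ⧸ T.Z0) τ x,
      w q.out ((T.r δ)⁻¹ • τ) ((T.j δ)⁻¹ * x) = w (δ • q).out τ x := fun δ q τ x => by
    obtain ⟨ζ, hζ, o⟩ := sm δ q
    rw [o, w2 _ _ hζ, w1]
  have zq : ∀ δ (q : G0 ⧸ T.Z0) x,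
      ρ δ (z q.out ((T.j δ)⁻¹ * x)) = z (δ • q).out x - z δ x := fun δ q x => by
    obtain ⟨ζ, hζ, o⟩ := sm δ q
    rw [o, z2 _ ζ, hz.2.2 ζ hζ, z2]
    simp
  refine ⟨fun τ x => -((Φ τ x)⁻¹ • N τ x), fun x => ?_, fun τ x u hu => ?_, fun δ τ x => ?_⟩
  · refine (((continuous_finsum (fun q => Complex.continuous_ofReal.comp (w4 _ x))
      ((w5 x).subset fun q τ h => by simpa using h)).inv₀ fun τ => Φ0 τ x).smul
      (continuous_finsum (fun q => (Complex.continuous_ofReal.comp (w4 _ x)).smul continuous_const)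
      ((w5 x).subset fun q τ h => by simpa using left_ne_zero_of_smul h))).neg
  · simp only [Φ, N, w3 _ _ _ u hu, hz.1 _ x u hu]
  · have e1 : Φ ((T.r δ)⁻¹ • τ) ((T.j δ)⁻¹ * x) = Φ τ x := by
      simp only [Φ, wq]
      exact finsum_comp_equiv (MulAction.toPerm δ) (f := fun q : G0 ⧸ T.Z0 => (w q.out τ x : ℂ))
    have e2 : ρ δ (N ((T.r δ)⁻¹ • τ) ((T.j δ)⁻¹ * x)) = N τ x - Φ τ x • z δ x := by
      rw [show ρ δ (N _ _) = _ from (ρ δ).toAddMonoidHom.map_finsum (fv _ _ _)]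
      simp only [LinearMap.toAddMonoidHom_coe, map_smul, wq, zq]
      refine (finsum_comp_equiv (MulAction.toPerm δ)
        (f := fun q : G0 ⧸ T.Z0 => (w q.out τ x : ℂ) • (z q.out x - z δ x))).trans ?_
      simp only [smul_sub]
      rw [finsum_sub_distrib (fv _ _ _) (fv _ _ _), ← finsum_smul' (fc τ x)]
    rw [map_neg, map_smul, e1, e2, smul_sub, smul_smul, inv_mul_cancel₀ (Φ0 τ x), one_smul,
      neg_sub, sub_eq_neg_add]

/-- an element that exchanges `i` and `σ` -/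
theorem ex_swap (σ : ℍ) : ∃ k : SL(2, ℝ), k • I = σ ∧ k • σ = I := by
  have y0 := σ.im_pos
  set x := σ.re
  set y := σ.im
  have p : 0 < y * (x ^ 2 + (1 + y) ^ 2) := by positivity
  set ν := (√(y * (x ^ 2 + (1 + y) ^ 2)))⁻¹ with hν
  have ν0 : 0 < ν := by positivity
  have n2 : ν ^ 2 * (y * (x ^ 2 + (1 + y) ^ 2)) = 1 := by
    rw [hν, inv_pow, Real.sq_sqrt p.le, inv_mul_cancel₀ p.ne']
  let k : SL(2, ℝ) := ⟨!![ν * x, ν * (-x ^ 2 - y * (1 + y)); ν * (1 + y), -(ν * x)], by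
    rw [Matrix.det_fin_two_of]
    linear_combination n2⟩
  have e : k • I = σ := by
    apply UpperHalfPlane.ext
    rw [coe_specialLinearGroup_apply, div_eq_iff]
    · apply Complex.ext <;> simp [k, x, y, sq] <;> ring
    · intro h
      have := congrArg Complex.im h
      simp [k, ν0.ne'] at this
      linarith
  refine ⟨k, e, ?_⟩
  have k2 : k * k = -1 := by
    ext i j
    rw [Matrix.SpecialLinearGroup.coe_mul, Matrix.mul_apply, Fin.sum_univ_two]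
    fin_cases i <;> fin_cases j <;> simp [k] <;> first | ring1 | linear_combination -n2
  rw [← e, ← mul_smul, k2]
  apply UpperHalfPlane.ext
  simp [coe_specialLinearGroup_apply]

variable {B : Type} [AddCommGroup B] [Module ℂ B] {ρ : Representation ℂ G0 B} {V : Type}
  [NormedAddCommGroup V] [InnerProductSpace ℂ V] (A : Arc T ρ V)

/-- the representation on `V` -/
def Arc.rho : Representation ℂ G0 V where
  toFun γ := (A.ρ₁ (A.sl γ) * A.κ γ : V →L[ℂ] V)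
  map_one' := by simp only [map_one, mul_one]; rfl
  map_mul' γ δ := by
    ext v
    simp [A.com]

theorem Arc.rho_apply (γ : G0) (v : V) : A.rho γ v = A.ρ₁ (A.sl γ) (A.κ γ v) := rfl

theorem Arc.inv_rho (g : SL(2, ℝ)) (v : V) : A.ρ₁ g⁻¹ (A.ρ₁ g v) = v := by
  rw [← mul_apply_eq_comp, ← map_mul, inv_mul_cancel, map_one]
  rfl

variable (U) in
/-- the normalised differences -/
structure Good (k : SL(2, ℝ)) (W : SL(2, ℝ) → G → V) : Prop where
  inv : ∀ g, Inv U (W g)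
  eqv : ∀ γ g x, W (A.sl γ * g) (T.j γ * x) = A.κ γ (W g x)
  swp : ∀ g x, W (g * k) x = -A.ρ₁ k⁻¹ (W g x)
  cont : ∀ x, Continuous fun g => W g x

theorem Arc.red (ok : T.Ok) (hU : U ∈ T.Lev) : ∃ (S : Finset G) (C : Set SL(2, ℝ)), IsCompact C ∧
    ∀ g x, ∃ γ, ∃ g' ∈ C, ∃ s ∈ S, ∃ u ∈ U, g = A.sl γ * g' ∧ x = T.j γ * s * u := by
  obtain ⟨S, R, hS⟩ := RM.red ok hU
  refine ⟨S, _, isProperMap_smul_I.isCompact_preimage (isCompact_closedBall I R), fun g x => ?_⟩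
  obtain ⟨γ, s, hs, u, hu, e, d⟩ := hS (g • I) x
  refine ⟨γ, (A.sl γ)⁻¹ * g, ?_, s, hs, u, hu, (mul_inv_cancel_left _ _).symm, e⟩
  rw [Set.mem_preimage, mul_smul, ← map_inv, A.act, map_inv]
  exact d.le

variable {A} {k : SL(2, ℝ)} {W : SL(2, ℝ) → G → V}

theorem Good.max (h : Good U A k W) (ok : T.Ok) (hU : U ∈ T.Lev) :
    ∃ g₀ x₀, ∀ g x, ‖W g x‖ ≤ ‖W g₀ x₀‖ := by
  obtain ⟨S, C, c, hS⟩ := A.red ok hU
  obtain ⟨γ, g', hg, s, hs, -⟩ := hS 1 1
  obtain ⟨v, hv, m⟩ := (S.finite_toSet.isCompact_biUnion fun s _ =>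
    c.image (h.cont s)).exists_isMaxOn ⟨_, Set.mem_biUnion hs ⟨g', hg, rfl⟩⟩
    continuous_norm.continuousOn
  simp only [Set.mem_iUnion] at hv
  obtain ⟨x₀, -, g₀, -, rfl⟩ := hv
  refine ⟨g₀, x₀, fun g x => ?_⟩
  obtain ⟨γ, g', hg, s, hs, u, hu, rfl, rfl⟩ := hS g x
  rw [h.inv _ _ u hu, h.eqv, A.uni]
  exact m (Set.mem_biUnion hs ⟨g', hg, rfl⟩)

theorem Good.equi (h : Good U A k W) (ok : T.Ok) (hU : U ∈ T.Lev) {ε : ℝ} (e : 0 < ε) :
    ∀ᶠ a in 𝓝 (1 : SL(2, ℝ)), ∀ g, Bd ε (W (g * a) - W g) := by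
  obtain ⟨S, C, c, hS⟩ := A.red ok hU
  have : ∀ s ∈ S, ∀ᶠ a in 𝓝 (1 : SL(2, ℝ)), ∀ g ∈ C, ‖W (g * a) s - W g s‖ < ε := fun s _ =>
    c.eventually_forall_of_forall_eventually fun g _ => by
      have : Continuous fun p : SL(2, ℝ) × SL(2, ℝ) => ‖W (p.2 * p.1) s - W p.2 s‖ :=
        (((h.cont s).comp (continuous_snd.mul continuous_fst)).sub
          ((h.cont s).comp continuous_snd)).norm
      exact this.continuousAt.eventually_lt continuousAt_const (by simpa using e)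
  filter_upwards [(eventually_all_finset S).2 this] with a ha g x
  obtain ⟨γ, g', hg, s, hs, u, hu, rfl, rfl⟩ := hS g x
  rw [Pi.sub_apply, h.inv _ _ u hu, h.inv _ _ u hu, mul_assoc, h.eqv, h.eqv, ← map_sub, A.uni]
  exact (ha s hs g' hg).le

variable [FiniteDimensional ℂ V] {O : Set G} (hO : Cor U O U) {c : ℂ}

theorem Good.lm (h : Good U A k W) (ok : T.Ok) (hU : U ∈ T.Lev) (ct : Ct (pm V hO c)) :
    Good U A k fun g => lm (pm V hO c) (W g) := by
  obtain ⟨g₀, x₀, b⟩ := h.max ok hU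
  refine ⟨fun g x u hu => ?_, fun γ g x => ?_, fun g x => ?_, fun x => ?_⟩
  · simp only [RM.lm, av_inv hO c (h.inv g) _ x u hu]
  · have : W (A.sl γ * g) = fun x => A.κ γ (W g ((T.j γ)⁻¹ * x)) := funext fun x => by
      rw [← h.eqv, mul_inv_cancel_left]
    rw [this, ct.lm_com (b g) (A.κ γ) _ (pm_com hO c (A.κ γ : V →ₗ[ℂ] V) _), inv_mul_cancel_left]
  · have : W (g * k) = fun x => (-A.ρ₁ k⁻¹) (W g (1 * x)) := funext fun x => by
      rw [h.swp, one_mul]; rfl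
    rw [this, ct.lm_com (b g) _ _ (pm_com hO c ((-A.ρ₁ k⁻¹ : V →L[ℂ] V) : V →ₗ[ℂ] V) _), one_mul]
    rfl
  · refine continuous_iff_continuousAt.2 fun g => ?_
    rw [ContinuousAt, ← map_mul_left_nhds_one g, tendsto_map'_iff, Metric.tendsto_nhds]
    intro ε e
    filter_upwards [h.equi ok hU (half_pos e)] with a ha
    have := ct.lm_bd (ha g) x
    rw [ct.lm_sub (b _) (b _)] at this
    rw [dist_eq_norm]
    exact this.trans_lt (half_lt_self e)

/-- if the exact eigenfunctions vanish, the class vanishes -/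
theorem core (ok : T.Ok) (hU : U ∈ T.Lev) (c0 : c ≠ 0) (hc : (hO.fin.toFinset.card : ℝ) ≤ ‖c‖)
    (H : ∀ k W, Good U A k W → (∀ g, pm V hO c (W g) = W g) → W 1 = 0) {z : G0 → G → B}
    (hz : z ∈ T.Z1 ρ U) (he : T.Eig ρ U z (hk O U) c) : z ∈ T.B1 ρ U := by
  have ct := pm_ct (V := V) hO c0 hc
  have hz' : (fun γ x => A.e (z γ x)) ∈ T.Z1 A.rho U := ⟨fun γ x u hu => by
    simp only [hz.1 γ x u hu], fun γ δ => funext fun x => by
      simp only [hz.2.1, Pi.add_apply, Tw.lt, map_add, A.eq, A.rho_apply], fun γ hγ =>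
    funext fun x => by simp [hz.2.2 γ hγ]⟩
  have he' : T.Eig A.rho U (fun γ x => A.e (z γ x)) (hk O U) c := by
    obtain ⟨b, hb, e⟩ := he
    refine ⟨fun x => A.e (b x), fun x u hu => by simp only [hb x u hu], fun γ => funext fun x => ?_⟩
    have := congrArg A.e (congrFun (e γ) x)
    simpa [hk_eq hO, Tw.lt, A.eq, A.rho_apply] using this
  obtain ⟨f, fc, fi, fe⟩ := prim ok hU hz'
  have key : ∀ σ x, Tendsto (fun n => av (pm V hO c) n (f σ - f I) x) (hyperfilter ℕ) (𝓝 0) := by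
    intro σ x
    obtain ⟨k, k1, k2⟩ := ex_swap σ
    have gd : Good U A k fun g x => A.ρ₁ g⁻¹ (f ((g * k) • I) x - f (g • I) x) := by
      refine ⟨fun g x u hu => by simp only [fi _ x u hu], fun γ g x => ?_, fun g x => ?_,
        fun x => ?_⟩
      · have e := fun τ => fe γ (T.r γ • τ) (T.j γ * x)
        simp only [inv_smul_smul, inv_mul_cancel_left] at e
        simp only [← A.act, ← sub_eq_iff_eq_add] at e
        rw [mul_assoc, mul_smul, mul_smul (A.sl γ), ← e, ← e, sub_sub_sub_cancel_right, ← map_sub,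
          A.rho_apply, mul_inv_rev, map_mul, mul_apply_eq_comp, A.inv_rho, A.com]
      · rw [mul_inv_rev, map_mul, mul_apply_eq_comp, ← map_neg, ← map_neg, neg_sub,
          mul_smul (g * k) k, k1, mul_smul g k σ, k2]
      · exact (A.cont.comp continuous_inv).clm_apply
          (((fc x).comp ((continuous_id.mul continuous_const).smul continuous_const)).sub
            ((fc x).comp (continuous_id.smul continuous_const)))
    obtain ⟨g₀, x₀, b⟩ := gd.max ok hU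
    have z0 := H k _ (gd.lm hO ok hU ct) fun g => funext fun x =>
      ct.lm_fix (b g) x (pm_tendsto hO x)
    have := ct.tendsto (b 1) x
    rw [congrFun z0 x] at this
    simpa [k1, Pi.sub_def] using this
  obtain ⟨b, hb, e⟩ := zero_of hO A.rho c0 hz' he' (f I) (fi I)
    (fun γ => f ((T.r γ)⁻¹ • I) - f I) (fun γ => funext fun x => by
      simp [Tw.lt, fe]) fun γ x => key _ x
  refine ⟨fun x => A.e.symm (b x), fun x u hu => by simp only [hb x u hu],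
    fun γ => funext fun x => A.e.injective ?_⟩
  simpa [Tw.lt, A.eq, A.rho_apply] using congrFun (e γ) x

/-- **row BNDC** -/
theorem bndc : BNDC := by
  intro G0 G _ _ T ok B _ _ ρ V _ _ _ A U hU z hz ne O hO c he
  by_contra l
  rw [not_le, hO.rep.ncard] at l
  have c0 : 0 < ‖c‖ := (Nat.cast_nonneg _).trans_lt l
  refine ne (core (A := A) hO ok hU (norm_pos_iff.1 c0) l.le (fun k W gd fx => ?_) hz he)
  obtain ⟨g₀, x₀, b⟩ := gd.max ok hU
  have := pm_bd hO (c := c) (b g₀) x₀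
  rw [fx, le_inv_mul_iff₀ c0] at this
  funext x
  exact norm_le_zero_iff.1 ((b 1 x).trans (by nlinarith [norm_nonneg (W g₀ x₀)]))

end Vale.Agent.P022K.RM
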