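import Vale.Agent.P022K.F0.St
import Vale.Agent.P022K.F0.Wt

/-!
# P022K, block RM: the eigenvalues of `T_w` on the first cohomology are not `± (q + 1)` (statements)
-/

set_option autoImplicit false

open UpperHalfPlane Filter Topology NumberField
open scoped MatrixGroups

noncomputable section

namespace Vale.Agent.P022K.RM

open Vale.Agent.P022 Sh

section abstract

variable {G0 G : Type} [Group G0] [Group G] (T : Tw G0 G) {B : Type} [AddCommGroup B] [Module ℂ B]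
  (ρ : Representation ℂ G0 B) (V : Type) [NormedAddCommGroup V] [InnerProductSpace ℂ V]

/-- the archimedean structure of a local system: a representation of `SL₂(ℝ)` times a unitary
representation -/
structure Arc where
  e : B ≃ₗ[ℂ] V
  sl : G0 →* SL(2, ℝ)
  act : ∀ γ (τ : ℍ), sl γ • τ = T.r γ • τ
  ρ₁ : SL(2, ℝ) →* (V →L[ℂ] V)
  cont : Continuous ρ₁
  κ : G0 →* (V →L[ℂ] V)
  eq : ∀ γ v, e (ρ γ v) = ρ₁ (sl γ) (κ γ (e v))
  com : ∀ g γ v, ρ₁ g (κ γ v) = κ γ (ρ₁ g v)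
  uni : ∀ γ v, ‖κ γ v‖ = ‖v‖
  iso : ∀ g : SL(2, ℝ), g • I = I → ∀ v, ‖ρ₁ g v‖ = ‖v‖

variable {T ρ V} in
/-- the invariants of the unitary part are invariants of `SL₂(ℝ)` -/
def Arc.Fix (A : Arc T ρ V) : Prop :=
  ∀ Γ, T.Fu Γ → ∀ v, (∀ γ ∈ Γ, A.κ γ v = v) → ∀ g, A.ρ₁ g v = v

end abstract

/-- **DENS**: a group that is not discrete and contains a cocompact discrete group -/
def DENS : Prop := ∀ (Γ : Type) [Group Γ] (s : Γ →* SL(2, ℝ)) (l : Γ → ℝ) (Δ : Subgroup Γ),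
  (∀ γ, 0 ≤ l γ) → (∀ γ δ, l (γ * δ) ≤ l γ + l δ) → (∀ γ, l γ⁻¹ ≤ l γ) →
  (∀ γ δ, l (γ * δ * γ⁻¹) ≤ l δ) →
  (∃ K : Set ℍ, IsCompact K ∧ ∀ τ : ℍ, ∃ γ ∈ Δ, s γ • τ ∈ K) →
  (∀ u : ℕ → Γ, (∀ n, u n ∈ Δ) → Tendsto (fun n => s (u n)) atTop (𝓝 1) →
    ∃ n, ∀ τ : ℍ, s (u n) • τ = τ) →
  (∃ h : ℕ → Γ, Tendsto (fun n => s (h n)) atTop (𝓝 1) ∧
    Tendsto (fun n => l (h n)) atTop (𝓝 0) ∧ ∀ n, ∃ τ : ℍ, s (h n) • τ ≠ τ) →
  ∀ g : SL(2, ℝ), ∃ u : ℕ → Γ, Tendsto (fun n => s (u n)) atTop (𝓝 g) ∧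
    Tendsto (fun n => l (u n)) atTop (𝓝 0)

/-- a statement about all local systems with an archimedean structure -/
def AllA (P : ∀ {G0 G : Type} [Group G0] [Group G] (T : Tw G0 G) {B : Type} [AddCommGroup B]
    [Module ℂ B] (ρ : Representation ℂ G0 B) {V : Type} [NormedAddCommGroup V]
    [InnerProductSpace ℂ V], Arc T ρ V → Prop) : Prop :=
  All fun {G0 _} _ _ T => ∀ (B : Type) [AddCommGroup B] [Module ℂ B] (ρ : Representation ℂ G0 B)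
    (V : Type) [NormedAddCommGroup V] [InnerProductSpace ℂ V] [FiniteDimensional ℂ V]
    (A : Arc T ρ V), P T ρ A

/-- **BNDC**: the archimedean bound -/
def BNDC : Prop := AllA fun {_ G} _ _ T {_} _ _ ρ {_} _ _ _ => ∀ U ∈ T.Lev, ∀ z ∈ T.Z1 ρ U,
  z ∉ T.B1 ρ U → ∀ O, Cor U O U → ∀ c, T.Eig ρ U z (hk O U) c →
    ‖c‖ ≤ {y : G ⧸ U | y.out ∈ O}.ncard

/-- **RAMC**: the strict bound -/
def RAMC : Prop := AllA fun {_ _} _ _ T {_} _ _ ρ {_} _ _ A => A.Fix → ∀ U ∈ T.Lev,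
  ∀ z ∈ T.Z1 ρ U, z ∉ T.B1 ρ U → T.AllL fun {O K} _ _ _ _ _ L => L.At (KK O K) U → L.SA →
    ∀ c, T.Eig ρ U z (hk (L.To U) U) c → ‖c‖ < qq O + 1

end Vale.Agent.P022K.RM
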