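import Vale.Agent.P022K.RM.St
import Vale.Agent.P022K.F0.Aut

/-!
# P022K, block RM: statements for quaternion algebras
-/

set_option autoImplicit false

open NumberField

noncomputable section

namespace Vale.Agent.P022K.RM

open Vale.Agent.P022 Sh

/-- change of the coefficients of the splittings -/
def mp {F : Type} [Field F] [NumberField F] {Y : QD F} (φ : Qb →+* ℂ) (s : Y.Sp Qb) : Y.Sp ℂ :=
  fun τ => φ.mapMatrix.comp (s τ)

open Classical in
/-- **ARC**: the archimedean structure of the parallel weights -/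
def ARC : Prop := AllQ fun {F} _ _ Y => ∀ m (s : Y.Sp Qb), Y.IsSp s → ∀ φ : Qb →+* ℂ,
  ∃ A : Arc Y.tw (Y.rw m (mp φ s)) (EuclideanSpace ℂ ((F →+* Qb) → Fin (2 * m + 1))), A.Fix

/-- **RAM** -/
def RAM : Prop := AllQ fun {_} _ _ Y => ∀ m (s : Y.Sp Qb), Y.IsSp s → ∀ U ∈ Y.tw.Lev,
  ∀ z ∈ Y.tw.Z1 (Y.rw m s) U, z ∉ Y.tw.B1 (Y.rw m s) U →
    Y.tw.AllL fun {O K} _ _ _ _ _ L => L.At (KK O K) U → L.SA →
      ∀ c, Y.tw.Eig (Y.rw m s) U z (hk (L.To U) U) c → ∀ φ : Qb →+* ℂ, ‖φ c‖ < qq O + 1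

/-- leaf: change of coefficients -/
def SRAM : Prop := AllQ (fun Y => Y.OK) → ARC → (RAMC → RAM) ∧ (BNDC → BNDA)

end Vale.Agent.P022K.RM
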